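import Vale.Agent.P283B.LS.Mult
import Vale.Agent.P283B.LS.RealA

/-!
# P283B, block RK: a disc with few conjugates has a centre of small ramification (MULT2)
-/

open Set Polynomial Filter Topology

noncomputable section

namespace Vale.Agent.P283B.Rk.Mu

open Mono Ls Ls.Mu

variable {Ω : Type} [Field Ω] {w : AbsoluteValue Ω ℝ}

/-- two isometric embeddings: an algebraic element over the first has a twin over the second -/
theorem twin [IsAlgClosed Ω] (hw : IsNonarchimedean w) {F : Type} [Field F] (φ ψ : F →+* Ω)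
    (h : ∀ x, w (ψ x) = w (φ x)) {a : Ω} {p : F[X]} (p0 : p ≠ 0) (ha : p.eval₂ φ a = 0) :
    ∃ α, ∀ q : F[X], w (q.eval₂ ψ α) = w (q.eval₂ φ a) := by
  let A : Algebra F Ω := φ.toAlgebra
  have i : IsIntegral F a := IsAlgebraic.isIntegral ⟨p, p0, ha⟩
  have : Fact (Irreducible (minpoly F a)) := ⟨minpoly.irreducible i⟩
  have : FiniteDimensional F (AdjoinRoot (minpoly F a)) :=
    (AdjoinRoot.powerBasis (minpoly.ne_zero i)).finite
  let χ : AdjoinRoot (minpoly F a) →+* Ω := AdjoinRoot.lift φ a (minpoly.aeval F a)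
  obtain ⟨θ, hθ⟩ := @Re.emb F (AdjoinRoot (minpoly F a)) Ω _ _ _ w (w.comp χ.injective) _ _
    ψ.toAlgebra _ hw (fun x y => (congrArg w (map_add χ x y)).trans_le (hw _ _))
    fun x => (congrArg w (AdjoinRoot.lift_of (minpoly.aeval F a))).trans (h x).symm
  refine ⟨θ (AdjoinRoot.root _), fun q => ?_⟩
  have e := @aeval_algHom_apply F _ _ _ _ _ _ ψ.toAlgebra _ _ _ θ (AdjoinRoot.root _) q
  refine (congrArg w e).trans ((hθ _).trans ?_)
  rw [AdjoinRoot.aeval_eq]
  exact congrArg w (AdjoinRoot.lift_mk (minpoly.aeval F a) q)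

variable {K : Subfield Ω}

/-- conjugates move together -/
theorem near [IsAlgClosed Ω] (hw : IsNonarchimedean w) {a a' β : Ω} (ha : IsAlgebraic K a)
    (ha' : IsAlgebraic K a') (h : Eqv w K a' β) : ∃ α, Eqv w K a α ∧ w (α - β) = w (a - a') := by
  have i := ha'.isIntegral
  have : Fact (Irreducible (minpoly K a')) := ⟨minpoly.irreducible i⟩
  have b : (minpoly K a').eval₂ (algebraMap K Ω) β = 0 :=
    w.eq_zero.1 ((h _).trans (by rw [minpoly.aeval, map_zero]))
  let φ : AdjoinRoot (minpoly K a') →+* Ω := AdjoinRoot.lift _ a' (minpoly.aeval K a')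
  let ψ : AdjoinRoot (minpoly K a') →+* Ω := AdjoinRoot.lift _ β b
  have e1 : φ.comp (AdjoinRoot.of _) = algebraMap K Ω := AdjoinRoot.lift_comp_of _
  have e2 : ψ.comp (AdjoinRoot.of _) = algebraMap K Ω := AdjoinRoot.lift_comp_of _
  obtain ⟨p, p0, hp⟩ := ha
  obtain ⟨α, hα⟩ := twin hw φ ψ (fun x => by
    obtain ⟨q, rfl⟩ := AdjoinRoot.mk_surjective x
    exact (congrArg w (AdjoinRoot.lift_mk _ q)).trans
      ((h q).trans (congrArg w (AdjoinRoot.lift_mk _ q)).symm))
    (p := p.map (AdjoinRoot.of _)) (a := a) (Polynomial.map_ne_zero p0)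
    (by rw [eval₂_map, e1]; exact hp)
  refine ⟨α, fun q => ?_, ?_⟩
  · have := hα (q.map (AdjoinRoot.of _))
    rwa [eval₂_map, eval₂_map, e1, e2] at this
  · have := hα (X - C (AdjoinRoot.root _))
    simpa [φ, ψ] using this

/-- **MULT2** -/
theorem mult2 [IsAlgClosed Ω] (hw : IsNonarchimedean w) (hn : ∀ m : ℕ, m ≠ 0 → w m = 1) {γ : Ω}
    (hγ : γ ∈ K) (γ1 : 1 < w γ) {a : Ω} (ha : IsAlgebraic K a) {s : ℝ} (s0 : 0 < s) {N : ℕ}
    (hN : ∀ α : Fin (N + 1) → Ω, (∀ i, Eqv w K a (α i)) → ∃ i j, i ≠ j ∧ w (α i - α j) ≤ s) :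
    ∃ (a' : Ω) (ν : ℕ), IsAlgebraic K a' ∧ w (a' - a) ≤ s ∧ 0 < ν ∧ ν ≤ N ∧
      ∀ z ∈ Subfield.closure ((K : Set Ω) ∪ {a'}), ∃ b ∈ K, w z ^ ν = w b := by
  classical
  obtain ⟨f, f0, hf⟩ := id ha
  have W0 : f.map (algebraMap K Ω) ≠ 0 := Polynomial.map_ne_zero f0
  obtain ⟨Z, hZ⟩ : ∃ Z, cnt w (f.map (algebraMap K Ω)) a s = Z + 1 :=
    Nat.exists_eq_succ_of_ne_zero (Multiset.card_pos_iff_exists_mem.2 ⟨a, Multiset.mem_filter.2
      ⟨(mem_roots W0).2 (by rwa [IsRoot, eval_map_algebraMap]), by simpa using s0.le⟩⟩).ne'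
  obtain ⟨h0, h1⟩ := cnt_der hw hn W0 s0 hZ
  rw [hd_map] at h0 h1
  set h := hasseDeriv Z f
  have h0' : h ≠ 0 := fun l => h0 (by simp [l])
  obtain ⟨a', ha'⟩ := Multiset.card_pos_iff_exists_mem.1 (one_pos.trans_eq h1.symm)
  obtain ⟨m1, m2⟩ := Multiset.mem_filter.1 ha'
  set S := (h.map (algebraMap K Ω)).roots.filter (Eqv w K a') with hS
  have al : IsAlgebraic K a' := ⟨h, h0', by
    rw [← eval_map_algebraMap]
    exact (mem_roots h0).1 m1⟩
  have S0 : 0 < S.card :=
    Multiset.card_pos_iff_exists_mem.2 ⟨a', Multiset.mem_filter.2 ⟨m1, fun _ => rfl⟩⟩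
  refine ⟨a', S.card, al, m2, S0, ?_, ?_⟩
  · by_contra! c
    have c2 : ∀ β ∈ S, (S.filter fun ρ => w (ρ - β) ≤ s).card ≤ 1 := fun β hβ => by
      rw [← h1, ← cnt_move hw _ m2, ← (Multiset.mem_filter.1 hβ).2.cnt hw h0' s0]
      exact Multiset.card_le_card (Multiset.filter_le_filter _ (Multiset.filter_le _ _))
    have nd : S.Nodup := Multiset.nodup_iff_count_le_one.2 fun β => by
      by_cases k : β ∈ S
      · refine le_trans ?_ (c2 β k)
        rw [← Multiset.count_filter_of_pos (p := fun ρ => w (ρ - β) ≤ s) (by simpa using s0.le)]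
        exact Multiset.count_le_card _ _
      · simp [k]
    obtain ⟨β⟩ : Nonempty (Fin (N + 1) ↪ S.toFinset) := Function.Embedding.nonempty_of_card_le
      (by rwa [Fintype.card_fin, Fintype.card_coe, Multiset.toFinset_card_of_nodup nd])
    have m : ∀ i, (β i).1 ∈ S := fun i => Multiset.mem_toFinset.1 (β i).2
    choose α e1 e2 using fun i => near hw ha al (Multiset.mem_filter.1 (m i)).2
    obtain ⟨i, j, ij, l⟩ := hN α e1
    rw [w.map_sub] at m2
    have d : w ((β i).1 - β j) ≤ s := by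
      have a1 := na_sub hw (α i - α j) (α i - β i)
      have a2 := hw (α i - α j - (α i - β i)) (α j - β j)
      rw [show α i - α j - (α i - β i) + (α j - β j) = β i - β j by ring] at a2
      exact a2.trans (max_le (a1.trans (max_le l (e2 i ▸ m2))) (e2 j ▸ m2))
    have := Finset.card_le_one.1 ((Multiset.toFinset_card_le _).trans (c2 _ (m j))) (β i)
      (by simp [d]) (β j) (by simp [s0.le])
    exact ij (β.injective (Subtype.ext this))
  · intro z hz
    have hz' : z ∈ IntermediateField.adjoin K {a'} := by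
      change z ∈ Subfield.closure _
      convert hz
      ext z
      simp [Subfield.algebraMap_ofSubfield]
    obtain ⟨p, q, rfl⟩ := (IntermediateField.mem_adjoin_simple_iff _ _).1 hz'
    by_cases z0 : aeval a' p / aeval a' q = 0
    · exact ⟨0, K.zero_mem, by rw [z0, map_zero, zero_pow S0.ne']⟩
    obtain ⟨p0, q0⟩ := div_ne_zero_iff.1 z0
    obtain ⟨b, hb, e1⟩ := val_cls hw hγ γ1 h0' p0
    obtain ⟨c, hc, e2⟩ := val_cls hw hγ γ1 h0' q0
    exact ⟨b / c, div_mem hb hc, by rw [map_div₀, map_div₀, div_pow, e1, e2]⟩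

end Vale.Agent.P283B.Rk.Mu
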