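import Vale.Agent.P283B.RK.St
import Vale.Agent.P283B.RK.Mult2

/-!
# P283B, block RK: a centre of bounded ramification (CEN)
-/

open Set Polynomial

noncomputable section

namespace Vale.Agent.P283B.Rk

open Mono Ls Ls.Rn Ls.Mu

namespace Ce

variable {Ω : Type} [Field Ω] {w : AbsoluteValue Ω ℝ}

theorem eqv_gn [IsAlgClosed Ω] (hw : IsNonarchimedean w) {K M : Subfield Ω} (hM : Cl M) (KM : K ≤ M)
    {a α γ x : Ω} (ha : a ∈ M) (hα : α ∈ M) (hγ : γ ∈ M) (γ0 : γ ≠ 0) (hx : Gn w M x)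
    (h : Eqv w K a α) : Eqv w K (a + γ * x) (α + γ * x) := fun q => by
  rw [Re.gau hw hM (fun a => KM a.2) ha hγ γ0 hx, Re.gau hw hM (fun a => KM a.2) hα hγ γ0 hx]
  exact Re.gn_congr (fun i => by rw [Re.hd_eval, Re.hd_eval, h]) (w.nonneg _)

theorem mem_of {K M : Subfield Ω} (hM : Cl M) (KM : K ≤ M) {a : Ω} (h : IsAlgebraic K a) :
    a ∈ M := by
  obtain ⟨p, p0, hp⟩ := h
  refine hM.root (f := p.map (algebraMap _ Ω)) (Polynomial.map_ne_zero p0) (fun i => ?_) ?_
  · rw [coeff_map]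
    exact KM (p.coeff i).2
  · rw [IsRoot.def, eval_map_algebraMap, hp]

theorem mv_le (z : Ω) (l : ℝ) : mv w z l ≤ l := by
  have := Real.log_le_log (Real.exp_pos _) (le_max_right (w z) (Real.exp (-l)))
  rw [Real.log_exp] at this
  unfold mv
  linarith

theorem le_mv {z : Ω} {l R : ℝ} (h : w z ≤ Real.exp R) (k : -R ≤ l) : -R ≤ mv w z l := by
  have := Real.log_le_log (lt_max_of_lt_right (Real.exp_pos (-l)))
    (max_le h (Real.exp_le_exp.2 (by linarith : -l ≤ R)))
  rw [Real.log_exp] at this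
  unfold mv
  linarith

theorem le_vl {z : Ω} (z0 : z ≠ 0) {R : ℝ} (h : w z ≤ Real.exp R) : -R ≤ vl w z := by
  rw [← exp_vl (w := w) z0, Real.exp_le_exp] at h
  linarith

theorem avg {N : ℕ} {f : Fin (N + 1) → ℝ} {R : ℝ} (h : ∀ q, |f q| ≤ R) :
    |1 / ((N : ℝ) + 1) * ∑ q, f q| ≤ R := by
  have := (Finset.abs_sum_le_sum_abs f Finset.univ).trans
    (Finset.sum_le_card_nsmul _ _ _ fun q _ => h q)
  rw [abs_mul, abs_of_pos (by positivity), one_div, inv_mul_le_iff₀ (by positivity)]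
  simpa using this

end Ce

open Ce in
theorem scen : SCEN := fun ke n C X C1 X1 => by
  classical
  have a1 : 1 ≤ C * (1 + X) := by nlinarith
  have a2 : X ≤ C * (C * (1 + X) + 2) := by nlinarith
  obtain ⟨r, ke⟩ := ke n C (C * (C * (1 + X) + 2)) C1 (X1.trans a2)
  obtain ⟨T, hT⟩ := exists_nat_ge (((r : ℝ) + 1) * (X + 3) + 1)
  refine ⟨T, T, fun Ω _ _ _ w E t u se A S _ _ Z σ m sp m1 σm tm Tm c ξ cj hσ hX => ?_⟩
  have hw := se.vs.na
  have r0 : (0 : ℝ) ≤ r := Nat.cast_nonneg r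
  have rT : (r : ℝ) + 1 ≤ T := by nlinarith
  have mμ := sp.long c cj
  have tri := sp.tri ξ
  set K := Kc t (c + 1) (Z.co ξ)
  set γ := Z.ra ξ c
  set μ := Z.μ c
  have γ0 : γ ≠ 0 := tri.ne c
  have γp := w.pos γ0
  have aL : Z.co ξ c - γ * u c ∈ Lv E u c := tri.cen c
  set a := Z.co ξ c - γ * u c with ha
  have KL : K ≤ Lv E u c := Kc.le (fun a => le_lv u c (se.cE a)) (le_lv u c se.tE)
    fun j hj => tri.lv c ▸ sub_acl _ _ ⟨j, hj, rfl⟩
  have al : IsAlgebraic K a := by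
    have e : Subfield.closure ((K : Set Ω) ∪ ∅) = K := by rw [union_empty, Subfield.closure_eq]
    refine e ▸ mem_acl.1 (acl_le (acl_cl K ∅) (sp.min _ (acl_cl K ∅)
      (fun a => le_acl _ _ (Kc.con _ _ _ a)) (le_acl _ _ (Kc.tm _ _ _))) ?_ (tri.lv c ▸ aL :
        a ∈ Lv E (Z.co ξ) c))
    rintro _ ⟨j, hj, rfl⟩
    exact le_acl _ _ (Kc.xm _ _ hj)
  have t0 := vl_pos se.t0 se.t1
  obtain ⟨b, bE, b0, b1, b2⟩ : ∃ b ∈ E, b ≠ 0 ∧ (T : ℝ) - 1 ≤ vl w γ - vl w b ∧
      vl w γ - vl w b ≤ T := by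
    obtain ⟨N, hN⟩ := exists_nat_ge (vl w t)
    have N0 : (0 : ℝ) < N := t0.trans_le hN
    have g0 : 0 < vl w t / N := by positivity
    obtain ⟨β, βE, β0, e⟩ := exists_val se.vs se.t0 ⌊T / (vl w t / N)⌋ (Nat.cast_pos.1 N0)
    have f1 := (le_div_iff₀ g0).1 (Int.floor_le (T / (vl w t / N)))
    have f2 := (div_lt_iff₀ g0).1 (Int.lt_floor_add_one (T / (vl w t / N)))
    have f3 := (div_le_one N0).2 hN
    refine ⟨γ / β, div_mem (tri.mem c) βE, div_ne_zero γ0 β0, ?_⟩
    rw [vl_div γ0 β0, e]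
    constructor <;> linarith
  have bp := w.pos b0
  have γb : w γ < w b := by
    rw [← exp_vl γ0, ← exp_vl b0, Real.exp_lt_exp]
    nlinarith
  have u1 := (se.tw c).one
  suffices h : ∀ α : Fin (r + 1) → Ω, (∀ i, Eqv w K a (α i)) →
      ∃ i j, i ≠ j ∧ w (α i - α j) ≤ w b by
    obtain ⟨a', ν, al', aa, ν0, νr, hν⟩ := Mu.mult2 hw se.vs.nat (inv_mem (Kc.tm t _ (Z.co ξ)))
      (by rw [map_inv₀]; exact (one_lt_inv₀ (w.pos se.t0)).2 se.t1) al bp h
    refine ⟨a', mem_of (lv_cl u c) KL al', b, bE, b0, by nlinarith, b2, ?_, ν, ν0,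
      νr.trans (by exact_mod_cast (by linarith : (r : ℝ) ≤ T)), hν⟩
    rw [show Z.co ξ c - a' = γ * u c - (a' - a) by rw [ha]; ring]
    exact (na_sub hw _ _).trans (max_le (by rw [map_mul, u1, mul_one]; exact γb.le) aa)
  intro α hα
  by_contra! far
  have αL : ∀ p, α p ∈ Lv E u c := fun p => by
    obtain ⟨q, q0, hq⟩ := al
    exact mem_of (lv_cl u c) KL ⟨q, q0, w.eq_zero.1 ((hα p q).trans (by rw [hq, map_zero]))⟩
  choose η ov co hΨ using fun p => sp.conj c ξ (α p) γ cj (αL p) (tri.mem c) γ0 (by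
    have := eqv_gn hw (lv_cl u c) KL aL (αL p) (le_lv u c (tri.mem c)) γ0 (se.tw c) (hα p)
    rwa [ha, sub_add_cancel] at this)
  have μ1 : 1 ≤ μ := m1.trans mμ
  have lo : ∀ j, c ≤ j → w (Z.co ξ j) ≤ Real.exp (C * (1 + X) * μ) ∧
      w (Z.ra ξ j) ≤ w (Z.co ξ j) ∧ |vl w (Z.ra ξ j)| ≤ C * (1 + X) * μ := fun j hj => by
    have h0 := (sp.pos j).le
    have h1 : Z.μ j ≤ μ := sp.anti hj
    have h2 := (sp.low ξ j hσ).trans (Real.exp_le_exp.2
      (by have := sp.lc ξ; gcongr : C * (1 + Z.Ψ ξ) * Z.μ j ≤ C * (1 + X) * μ))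
    have h3 := (se.tw j).lin hw (le_lv u j (tri.mem j)) (tri.ne j) (neg_mem (tri.cen j))
    rw [sub_neg_eq_add, add_sub_cancel] at h3
    have h4 := (le_max_left _ _).trans_eq h3.symm
    refine ⟨h2, h4, abs_le.2 ⟨le_vl (tri.ne j) (h4.trans h2), (sp.rad ξ j hσ).trans ?_⟩⟩
    have := sp.lc ξ
    gcongr
  have hP : C * (1 + X) * μ + 2 * μ = (C * (1 + X) + 2) * μ := by ring
  have P1 : μ ≤ C * (1 + X) * μ := le_mul_of_one_le_left (by linarith) a1
  have lR : (C * (1 + X) + 2) * μ ≤ C * ((C * (1 + X) + 2) * μ) :=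
    le_mul_of_one_le_left (by linarith) C1
  have lX := mul_assoc C (C * (1 + X) + 2) μ
  generalize C * (1 + X) * μ = P at *
  generalize (C * (1 + X) + 2) * μ = R at *
  obtain ⟨l1, l2, l3⟩ := lo c le_rfl
  obtain ⟨l4, l5⟩ := abs_le.1 l3
  have αw : ∀ p, w (α p) ≤ Real.exp P := fun p => by
    have := hα p Polynomial.X
    rw [aeval_X, aeval_X] at this
    rw [this, ha]
    exact (na_sub hw _ _).trans (max_le l1 (by rw [map_mul, u1, mul_one]; exact l2.trans l1))
  have PR : ∀ {x}, x ≤ Real.exp P → x ≤ Real.exp R := fun h =>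
    h.trans (Real.exp_le_exp.2 (by linarith))
  have bw : w b ≤ Real.exp (P + T) := by
    rw [← exp_vl b0, Real.exp_le_exp]
    linarith
  let U : Fin (r + 1) → ℝ := fun s => 1 / (r + 1) * ∑ q, mv w (α s + b * u c - α q) (vl w γ)
  have hU : ∀ s, |U s| ≤ P + T := fun s => avg fun q =>
    abs_le.2 ⟨le_mv ((na_sub hw _ _).trans (max_le ((hw _ _).trans (max_le
      ((αw s).trans (Real.exp_le_exp.2 (by linarith))) (by rwa [map_mul, u1, mul_one])))
      ((αw q).trans (Real.exp_le_exp.2 (by linarith))))) (by linarith),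
      (mv_le _ _).trans (by linarith)⟩
  have d : ∀ {p q : Fin (r + 1)} {β : Ω}, p ≠ q → w β ≤ w b →
      w (α p + β * u c - α q) = w (α p - α q) := fun {p q β} h k => by
    rw [add_sub_right_comm, na_add_lt hw (by rw [map_mul, u1, mul_one]; exact k.trans_lt (far p q h))]
  have z : ∀ s p, (w (((Z.co (η p) c - α s) / b) ^ (1 : ℤ)) < 1 ↔ p = s) ∧
      w (((Z.co (η p) c - α s) / b) ^ (1 : ℤ)) ≠ 1 := fun s p => by
    rw [zpow_one, map_div₀, co]
    by_cases h : p = s
    · rw [h, add_sub_cancel_left, map_mul, u1, mul_one]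
      have := (div_lt_one bp).2 γb
      exact ⟨by simpa, this.ne⟩
    · rw [d h γb.le]
      have := (one_lt_div bp).2 (far p s h)
      exact ⟨by simpa [h] using this.le, this.ne'⟩
  choose G hG ap using fun s => sp.nad R c ξ (r + 1) α γ (α s) b (1 / (r + 1)) (U s + 1) 1 0 1
    (Fin (r + 1)) η _ ⟨cj, hσ, αL, tri.mem c, γ0, αL s, bE, b0, by positivity,
      (by push_cast; rw [mul_one_div, div_self (by positivity)]), by linarith, by linarith,
      by linarith, by push_cast; linarith, by push_cast; linarith,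
      fun j hj => (lo j hj.le).2.2.trans (by linarith), fun j hj => PR (lo j hj.le).1,
      fun p => PR (αw p), PR (αw s), by linarith, abs_le.2 ⟨by linarith, by linarith⟩,
      (abs_add_le _ _).trans (by rw [abs_one]; linarith [hU s])⟩
    one_pos (.inl rfl) (fun p => ⟨ov p, (hΨ p).trans_le hσ, rfl, (z s p).2⟩) fun ξ' _ e => by
      rw [e]
      exact (show _ < (0 : ℝ) by simp [Vf, U]).trans_le (sp.lc ξ')
  obtain ⟨v, ⟨p₀, v1⟩, -, hv⟩ := ke Ω w E t u se A S Z σ m sp m1 σm tm c ξ η (C * R)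
    (Finset.univ.biUnion G) (fun p => ⟨ov p, (hΨ p).trans_le hσ, (hΨ p).trans_le (hX.trans a2)⟩)
    (by linarith) lX.ge fun g hg => by
      obtain ⟨s, -, hs⟩ := Finset.mem_biUnion.1 hg
      exact hG s g hs
  obtain ⟨s, -, hs⟩ := Finset.univ.exists_max_image (fun p => w (v p) * Real.exp (-U p))
    Finset.univ_nonempty
  have vs : Real.exp (U s - U p₀) ≤ w (v s) := by
    have := hs p₀ (by simp)
    rw [v1, one_mul, Real.exp_neg (U s), ← div_eq_mul_inv, le_div_iff₀ (Real.exp_pos _),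
      ← Real.exp_add] at this
    exact (Real.exp_le_exp.2 (by linarith)).trans this
  have v0 := (Real.exp_pos _).trans_le vs
  have := ap s v (w (v s) * Real.exp (-1)) (by positivity) (fun g hg => ?_) fun p => ?_
  · simp only [(z s _).1, pow_zero, mul_ite, mul_one, mul_zero, Finset.sum_ite_eq',
      Finset.mem_univ, if_true] at this
    exact this.not_gt (mul_lt_of_lt_one_right v0 (Real.exp_lt_one_iff.2 (by norm_num)))
  · refine (hv g (Finset.mem_biUnion.2 ⟨s, by simp, hg⟩)).trans (le_trans ?_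
      (mul_le_mul_of_nonneg_right (mul_le_mul_of_nonneg_right vs (Real.exp_pos _).le)
        (Real.exp_pos _).le))
    rw [← Real.exp_add, ← Real.exp_add, Real.exp_le_exp]
    linarith [(abs_le.1 (hU s)).1, (abs_le.1 (hU p₀)).2]
  · have e : ∑ q, mv w (α p + γ * u c - α q) (vl w γ) =
        ∑ q, mv w (α p + b * u c - α q) (vl w γ) + (vl w γ - vl w b) := by
      rw [← Finset.add_sum_erase _ _ (Finset.mem_univ p), ← Finset.add_sum_erase _ _
        (Finset.mem_univ p), Finset.sum_congr rfl fun q hq => show mv w (α p + γ * u c - α q) _ =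
          mv w (α p + b * u c - α q) (vl w γ) by
            rw [mv, mv, d (Finset.mem_erase.1 hq).1.symm γb.le,
              d (Finset.mem_erase.1 hq).1.symm le_rfl]]
      simp only [mv, add_sub_cancel_left, map_mul, u1, mul_one, exp_vl γ0, max_self,
        max_eq_left γb.le]
      unfold vl
      ring
    have k : X + 3 ≤ 1 / (r + 1) * (vl w γ - vl w b) := by
      rw [one_div, le_inv_mul_iff₀ (by positivity)]
      linarith
    calc _ ≤ w (v p) * (Real.exp (-U p) * Real.exp (U s - 1)) := by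
          rw [← Real.exp_add]
          simp only [Vf, co, e, hΨ, mul_add]
          gcongr
          simp only [U]
          linarith
      _ ≤ w (v s) * Real.exp (-U s) * Real.exp (U s - 1) := by
          rw [← mul_assoc]
          exact mul_le_mul_of_nonneg_right (hs p (by simp)) (Real.exp_pos _).le
      _ = _ := by rw [mul_assoc, ← Real.exp_add]; congr 2; ring

end Vale.Agent.P283B.Rk
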