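import Vale.Agent.P283B.RK.St

/-!
# P283B, block RK: the radius can be moved (leaf SLIP)
-/

open Set Polynomial

noncomputable section

namespace Vale.Agent.P283B.Rk

open Mono Ls Ls.Rn Ls.Mu

namespace Li

variable {Ω : Type} [Field Ω] {w : AbsoluteValue Ω ℝ}

/-- two generic points of the same disc -/
theorem eqv [IsAlgClosed Ω] (hw : IsNonarchimedean w) {K M : Subfield Ω} (hM : Cl M) (hK : K ≤ M)
    {x a a' b b' : Ω} (hx : Gn w M x) (ha : a ∈ M) (ha' : a' ∈ M) (hb : b ∈ M) (hb' : b' ∈ M)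
    (b0 : b ≠ 0) (e : w b' = w b) (h : w (a' - a) ≤ w b) : Eqv w K (a + b * x) (a' + b' * x) := by
  intro q
  have r := hM.roots (f := q.map (algebraMap K Ω)) fun i => by
    rw [coeff_map]; exact hK (q.coeff i).2
  have k : ∀ {ρ a a'}, w (a' - a) ≤ w b → max (w b) (w (ρ - a')) ≤ max (w b) (w (ρ - a)) :=
    fun {ρ a a'} h => max_le (le_max_left _ _) (by
      rw [← sub_sub_sub_cancel_right ρ a' a]
      exact (na_sub hw _ _).trans (max_le (le_max_right _ _) (h.trans (le_max_left _ _))))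
  rw [← eval_map_algebraMap, ← eval_map_algebraMap, hx.eval_roots hw ha hb b0 r,
    hx.eval_roots hw ha' hb' (fun z => w.ne_zero b0 (by rw [← e, z, map_zero])) r, e]
  congr 3
  exact funext fun ρ => le_antisymm (k h) (k (by rwa [w.map_sub]))

/-- Vandermonde -/
theorem vdm (hw : IsNonarchimedean w) {r : ℕ} {x v : Fin (r + 1) → Ω} (h1 : ∀ p, w (x p) ≤ 1)
    (h2 : ∀ p q, p ≠ q → w (x p - x q) = 1) {o : Fin (r + 1)} (ho : w (v o) = 1)
    (h : ∀ k ≤ r, w (∑ p, v p * x p ^ k) < 1) : False := by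
  have : ∀ s : Finset (Fin (r + 1)), ∀ k, k + s.card ≤ r →
      w (∑ p, v p * x p ^ k * ∏ q ∈ s, (x p - x q)) < 1 := fun s => by
    induction s using Finset.induction_on with
    | empty => simpa using h
    | insert q s hq ih =>
      intro k hk
      rw [Finset.card_insert_of_notMem hq] at hk
      rw [show ∑ p, v p * x p ^ k * ∏ q ∈ insert q s, (x p - x q) =
        ∑ p, v p * x p ^ (k + 1) * ∏ q ∈ s, (x p - x q) -
          x q * ∑ p, v p * x p ^ k * ∏ q ∈ s, (x p - x q) by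
        rw [Finset.mul_sum, ← Finset.sum_sub_distrib]
        exact Finset.sum_congr rfl fun p _ => by rw [Finset.prod_insert hq]; ring]
      refine (na_sub hw _ _).trans_lt (max_lt (ih _ (by omega)) ?_)
      rw [map_mul]
      exact mul_lt_one_of_nonneg_of_lt_one_right (h1 q) (w.nonneg _) (ih _ (by omega))
  have := this (Finset.univ.erase o) 0 (by simp)
  rw [Finset.sum_eq_single o (fun p _ z => by
    rw [Finset.prod_eq_zero (Finset.mem_erase.2 ⟨z, Finset.mem_univ p⟩) (sub_self _), mul_zero])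
    (by simp), map_mul, map_prod, Finset.prod_eq_one fun q z =>
      h2 o q (Finset.ne_of_mem_erase z).symm] at this
  simp [ho] at this

variable {A S : Type} [Algebra ℂ Ω] [CommRing A] [Algebra ℂ A] {n : ℕ} {E : Subfield Ω} {t : Ω}
  {u : Fin n → Ω} {Z : Dt Ω A S n} {C σ m X : ℝ} (s : Se w E t u) (h : Sp w E t u Z C σ m)

include s h

theorem kl (ξ : S) (c : Fin n) : Kc t (c + 1) (Z.co ξ) ≤ Lv E u c :=
  Kc.le (fun a => le_lv u c (s.cE a)) (le_lv u c s.tE) fun j hj => by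
    rw [← (h.tri ξ).lv c]
    exact sub_acl _ _ ⟨j, hj, rfl⟩

theorem ra_le (ξ : S) (j : Fin n) : w (Z.ra ξ j) ≤ w (Z.co ξ j) := by
  have := (s.tw j).lin s.vs.na (le_lv u j ((h.tri ξ).mem j)) ((h.tri ξ).ne j)
    (neg_mem ((h.tri ξ).cen j))
  rw [sub_neg_eq_add, add_sub_cancel] at this
  exact this ▸ le_max_left _ _

theorem ra_abs (hC : 0 ≤ C) {ξ : S} (g : Z.Ψ ξ ≤ σ) (x : Z.Ψ ξ ≤ X) (j : Fin n) :
    |vl w (Z.ra ξ j)| ≤ C * (1 + X) * Z.μ j := by
  have a := (ra_le s h ξ j).trans (h.low ξ j g)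
  rw [← exp_vl ((h.tri ξ).ne j), Real.exp_le_exp] at a
  have b := h.rad ξ j g
  have := mul_nonneg hC (h.pos j).le
  have := h.lc ξ
  exact abs_le.2 ⟨by nlinarith, by nlinarith⟩

/-- another generic point of the same disc -/
theorem same [IsAlgClosed Ω] {c : Fin n} (hc : c.1 < Z.j₀) (ξ : S) {a b : Ω} (ha : a ∈ Lv E u c)
    (hb : b ∈ E) (e : w b = w (Z.ra ξ c)) (k : w (Z.co ξ c - a) ≤ w (Z.ra ξ c)) :
    ∃ ξ', Z.Ov c ξ ξ' ∧ Z.co ξ' c = a + b * u c ∧ Z.Ψ ξ' = Z.Ψ ξ := by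
  have T := h.tri ξ
  refine h.conj c ξ a b hc ha hb (fun z => w.ne_zero (T.ne c) (by rw [← e, z, map_zero])) ?_
  have := eqv s.vs.na (lv_cl u c) (kl s h ξ c) (s.tw c) (T.cen c) ha (le_lv u c (T.mem c))
    (le_lv u c hb) (T.ne c) e (by
      rw [show a - (Z.co ξ c - Z.ra ξ c * u c) = Z.ra ξ c * u c - (Z.co ξ c - a) by ring]
      exact (na_sub s.vs.na _ _).trans (max_le (by rw [map_mul, (s.tw c).one, mul_one]) k))
  rwa [sub_add_cancel] at this

omit h in
theorem pts (c : Fin n) {e : ℤ} (he : e = 1 ∨ e = -1) (r : ℕ) :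
    (∀ p : Fin (r + 1), w ((p + u c) ^ e) = 1) ∧
      ∀ p q : Fin (r + 1), p ≠ q → w ((p + u c) ^ e - (q + u c) ^ e) = 1 := by
  have nat : ∀ p : ℕ, w p ≤ 1 := fun p => by
    rcases eq_or_ne p 0 with rfl | z
    exacts [by simp, (s.vs.nat p z).le]
  have a : ∀ p : ℕ, w (p + u c) = 1 := fun p => by
    have := (s.tw c).sub s.vs.na (neg_mem (natCast_mem (Lv E u c) p))
    rwa [sub_neg_eq_add, add_comm, w.map_neg, max_eq_left (nat p)] at this
  have b : ∀ p q : ℕ, p ≠ q → w (p - q) = 1 := fun p q z => by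
    rcases z.lt_or_gt with z | z
    · rw [w.map_sub, ← Nat.cast_sub z.le, s.vs.nat _ (by omega)]
    · rw [← Nat.cast_sub z.le, s.vs.nat _ (by omega)]
  have c0 : ∀ p : ℕ, (p : Ω) + u c ≠ 0 := fun p z => by simpa [z] using a p
  refine ⟨fun p => by rw [map_zpow₀, a, one_zpow], fun p q z => ?_⟩
  rcases he with rfl | rfl
  · simpa using b p q fun x => z (Fin.ext x)
  · rw [zpow_neg_one, zpow_neg_one, inv_sub_inv (c0 p) (c0 q), map_div₀, map_mul, a, a,
      add_sub_add_right_eq_sub, b q p fun x => z (Fin.ext x.symm)]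
    simp

end Li

open Li

/-- **SLIP** -/
theorem slip : SLIP := fun ke n C X C1 X1 => by
  classical
  obtain ⟨Q, hQ⟩ : ∃ Q, C * (1 + X) + 1 = Q := ⟨_, rfl⟩
  have Q1 : C + X ≤ Q := by nlinarith
  obtain ⟨r, ke⟩ := ke n C (C * Q) C1 (by nlinarith)
  refine ⟨r, fun Y => ⟨r + Y + (X + 1 + r * Y), ?_⟩⟩
  intro Ω _ _ _ w E t u s A S _ _ Z σ m h m1 σm tm m0 c ξ a b hc g x ha hb b0 k hY
  have T := h.tri ξ
  obtain ⟨η, hη⟩ : ∃ η, |vl w (Z.ra ξ c) - vl w b| = η := ⟨_, rfl⟩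
  have η0 : 0 ≤ η := hη ▸ abs_nonneg _
  by_cases z : w b = w (Z.ra ξ c)
  · obtain ⟨ξ', a1, a2, a3⟩ := same s h hc ξ ha hb z k
    exact ⟨ξ', a1, a2, by rw [a3, hη]; nlinarith [r.cast_nonneg (α := ℝ)]⟩
  obtain ⟨e, he, l1⟩ : ∃ e : ℤ, (e = 1 ∨ e = -1) ∧ w ((Z.ra ξ c / b) ^ e) = Real.exp (-η) ∧
      w ((Z.ra ξ c / b) ^ e) < 1 := by
    have v : w (Z.ra ξ c / b) = Real.exp (-(vl w (Z.ra ξ c) - vl w b)) := by
      rw [← vl_div (T.ne c) b0, exp_vl (div_ne_zero (T.ne c) b0)]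
    have ne : vl w (Z.ra ξ c) - vl w b ≠ 0 := fun y => z (by
      rw [← exp_vl b0, ← exp_vl (T.ne c), sub_eq_zero.1 y])
    rcases ne.lt_or_gt with y | y
    · refine ⟨-1, .inr rfl, ?_⟩
      rw [zpow_neg_one, map_inv₀, v, ← Real.exp_neg, ← hη, abs_of_neg y]
      exact ⟨rfl, Real.exp_lt_one_iff.2 (by linarith)⟩
    · refine ⟨1, .inl rfl, ?_⟩
      rw [zpow_one, v, ← hη, abs_of_pos y]
      exact ⟨rfl, Real.exp_lt_one_iff.2 (by linarith)⟩
  obtain ⟨p1, p2⟩ := pts s c he r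
  choose P o1 o2 o3 using fun p : Fin (r + 1) => same s h hc ξ (a := a + p * Z.ra ξ c)
    (add_mem ha (mul_mem (natCast_mem _ _) (le_lv u c (T.mem c)))) (T.mem c) rfl (by
      rw [← sub_sub]
      refine (na_sub s.vs.na _ _).trans (max_le k ?_)
      rw [map_mul]
      refine mul_le_of_le_one_left (w.nonneg _) ?_
      rcases eq_or_ne (p : ℕ) 0 with y | y
      exacts [by simp [y], (s.vs.nat p y).le])
  rw [hη] at hY ⊢
  by_contra! f
  have μ1 := h.long c hc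
  have r0 : (0 : ℝ) ≤ r := r.cast_nonneg
  have rY := mul_le_mul_of_nonneg_left hY r0
  have rη := mul_nonneg r0 η0
  have μ0 := h.pos c
  have QR : Z.μ c ≤ Q * Z.μ c := by nlinarith
  have ψ0 := h.lc ξ
  have CR : C * (1 + Z.Ψ ξ) * Z.μ c ≤ Q * Z.μ c :=
    mul_le_mul_of_nonneg_right (by nlinarith) μ0.le
  have lR : Z.μ c ≤ C * (Q * Z.μ c) := by nlinarith
  have cl : ∀ j, c ≤ j → w (Z.co ξ j) ≤ Real.exp (Q * Z.μ c) := fun j y => (h.low ξ j g).trans
    (Real.exp_le_exp.2 ((mul_le_mul_of_nonneg_left (h.anti y) (by positivity)).trans CR))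
  have rl : ∀ j, c ≤ j → |vl w (Z.ra ξ j)| + Z.μ c ≤ Q * Z.μ c := fun j y => by
    have := (ra_abs s h (by linarith) g x j).trans
      (mul_le_mul_of_nonneg_left (h.anti y) (by positivity))
    rw [← hQ]
    linarith
  have wz : ∀ p : Fin (r + 1), w ((Z.ra ξ c / b) ^ e * (p + u c) ^ e) < 1 := fun p => by
    rw [map_mul, p1, mul_one]; exact l1.2
  choose G G1 G2 using fun i : Fin (r + 1) => h.nad (Q * Z.μ c) c ξ 0 Fin.elim0 1 a b 0
    (-(Z.Ψ ξ + 1 + r * η)) (1 / 2) i e _ P (fun p => (Z.ra ξ c / b) ^ e * (p + u c) ^ e)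
    ⟨hc, g, fun i => i.elim0, one_mem _, one_ne_zero, ha, hb, b0, le_rfl, by simp, QR,
      by linarith, by linarith, by simpa using μ0.le.trans QR,
      le_trans (by exact_mod_cast Nat.lt_succ_iff.1 i.2) (show (r : ℝ) ≤ _ by linarith),
      fun j y => by linarith [rl j y.le], fun j y => cl j y.le, fun i => i.elim0, by
        rw [← sub_sub_cancel (Z.co ξ c) a]
        exact (na_sub s.vs.na _ _).trans (max_le (cl c le_rfl)
          (k.trans ((ra_le s h ξ c).trans (cl c le_rfl)))), by simpa [vl] using μ0.le.trans QR, by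
        have := abs_sub (vl w (Z.ra ξ c)) (vl w (Z.ra ξ c) - vl w b)
        rw [sub_sub_cancel, hη] at this
        linarith [rl c le_rfl], by
        rw [abs_neg, abs_of_nonneg (by linarith [h.lc ξ])]
        linarith⟩ one_half_pos he
    (fun p => ⟨o1 p, (o3 p).trans_le g, by rw [o2, ← mul_zpow]; congr 1; ring, (wz p).ne⟩)
    fun ξ' y1 y2 => by simpa [Vf] using f ξ' y1 y2
  obtain ⟨v, ⟨o, ho⟩, v1, v2⟩ := ke Ω w E t u s A S Z σ m h m1 σm tm c ξ P (C * (Q * Z.μ c))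
    (Finset.univ.biUnion G) (fun p => ⟨o1 p, (o3 p).trans_le g, (o3 p).trans_le (by nlinarith)⟩)
    (by linarith) (mul_assoc _ _ _).ge fun g y =>
      let ⟨i, _, y⟩ := Finset.mem_biUnion.1 y; G1 i g y
  refine vdm s.vs.na (fun p => (p1 p).le) p2 ho fun i hi => ?_
  have := G2 ⟨i, Nat.lt_succ_iff.2 hi⟩ v (Real.exp (-(1 / 2 + r * η))) (Real.exp_pos _).le
    (fun g y => (v2 g (Finset.mem_biUnion.2 ⟨_, Finset.mem_univ _, y⟩)).trans (by
      rw [← Real.exp_add, Real.exp_le_exp]; linarith)) fun p => by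
      refine (mul_le_of_le_one_left (Real.exp_pos _).le (v1 p)).trans_eq ?_
      simp only [Vf, o3, zero_mul]
      congr 1
      ring
  simp only [if_pos (wz _)] at this
  simp only [mul_pow, mul_left_comm (v _), ← Finset.mul_sum, map_mul, map_pow, l1.1,
    ← Real.exp_nat_mul] at this
  refine lt_of_mul_lt_mul_left (this.trans_lt ?_) (Real.exp_pos _).le
  rw [mul_one, Real.exp_lt_exp]
  have := mul_le_mul_of_nonneg_right (Nat.cast_le (α := ℝ).2 hi) η0
  linarith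

end Vale.Agent.P283B.Rk
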