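import Vale.Agent.P283B.RK.St

/-!
# P283B, block RK: the rounds
-/

open Set

noncomputable section

namespace Vale.Agent.P283B.Rk

open Mono Ls Ls.Rn

namespace Ro

/-- one approximation, two thresholds -/
theorem two {g a b : ℝ} (x : ℝ) (ha : 1 ≤ a) (hb : 1 ≤ b) (h : a * b ≤ g) : ∃ (k : ℕ) (z : ℤ),
    0 < k ∧ ((a ≤ g / k ∧ |x - z * (g / k)| ≤ 1) ∨ (b ≤ g / k ∧ |x - z * (g / k)| ≤ a)) := by
  have a0 : 0 < a := by linarith
  have ag : a ≤ g := by nlinarith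
  have g0 : 0 < g := by linarith
  obtain ⟨k, k0, k1, e⟩ := Real.exists_nat_abs_mul_sub_round_le (x / g)
    (Nat.floor_pos.2 ((one_le_div a0).2 ag))
  have k2 : (0 : ℝ) < k := Nat.cast_pos.2 k0
  have k3 : (1 : ℝ) ≤ k := Nat.one_le_cast.2 k0
  have e1 : |x - round (k * (x / g)) * (g / k)| * k ≤ a := by
    rw [show x - round (k * (x / g)) * (g / k) = (k * (x / g) - round (k * (x / g))) * (g / k) by
      field_simp, abs_mul, abs_of_pos (div_pos g0 k2), mul_assoc, div_mul_cancel₀ _ k2.ne']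
    refine (mul_le_mul_of_nonneg_right e g0.le).trans ?_
    have := (Nat.lt_floor_add_one (g / a)).le
    rw [div_le_iff₀ a0] at this
    rw [one_div_mul_eq_div, div_le_iff₀ (by positivity)]
    linarith
  have e2 := abs_nonneg (x - round (k * (x / g)) * (g / k))
  refine ⟨k, round (k * (x / g)), k0, (le_total a k).imp (fun z => ⟨?_, by nlinarith⟩)
    fun z => ⟨?_, by nlinarith⟩⟩
  · have := (Nat.cast_le.2 k1).trans (Nat.floor_le (div_pos g0 a0).le)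
    rw [le_div_iff₀ a0] at this
    rw [le_div_iff₀ k2]
    linarith
  · rw [le_div_iff₀ k2]
    nlinarith

/-- the claim at the level `c` -/
def Cm (n c : ℕ) (C X G : ℝ) : Prop := ForD n C fun _ _ _ _ _ _ _ w _ t _ Z σ _ => G ≤ σ →
  c ≤ Z.j₀ → ∀ ξ (N : ℕ), Z.Ψ ξ ≤ X → 0 < N → G ≤ vl w t / N →
    ¬ VG w (Kc t c (Z.co ξ)) (vl w t / N)

variable {n c : ℕ} {C : ℝ}

theorem base (fi : FIN) (hC : 1 ≤ C) (X : ℝ) (hX : 1 ≤ X) : ∃ G, 1 ≤ G ∧ Cm n 0 C X G := by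
  obtain ⟨r, r0, h⟩ := fi n C X hC hX
  have r1 : (0 : ℝ) < r := Nat.cast_pos.2 r0
  have p : 0 ≤ C * (1 + X) * r := by positivity
  refine ⟨X + C * (1 + X) * r, by linarith, ?_⟩
  intro Ω _ _ _ w E t u se A S _ _ Z σ m sp m1 σm tm hσ _ ξ N hξ _ hG hV
  have := sp.ms ξ _ (by linarith) (div_pos (by linarith) r1)
    (h Ω w E t u se A S Z σ m sp m1 σm tm ξ _ (by linarith) hξ hV)
  rw [div_le_iff₀ r1] at this
  have := mul_le_mul_of_nonneg_right (mul_le_mul_of_nonneg_left (add_le_add_right hξ 1)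
    (zero_le_one.trans hC)) r1.le
  linarith

theorem ra_eq {Ω : Type} [Field Ω] {w : AbsoluteValue Ω ℝ} {E : Subfield Ω} {u x γ : Fin n → Ω}
    (hu : Tw w E u) (h : Tri E u x γ) {j : Fin n} {a b : Ω} (ha : a ∈ Lv E u j) (hb : b ∈ E)
    (e : x j = a + b * u j) : γ j = b := by
  by_contra z
  have := div_mem (sub_mem ha (h.cen j)) (le_lv u j (sub_mem (h.mem j) hb))
  rw [e, show a - (a + b * u j - γ j * u j) = (γ j - b) * u j by ring,
    mul_div_cancel_left₀ _ (sub_ne_zero.2 z)] at this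
  exact (hu j).not_mem this

theorem step (ce : CEN) (li : LIP) (hC : 1 ≤ C) (ih : ∀ X, 1 ≤ X → ∃ G, 1 ≤ G ∧ Cm n c C X G)
    (X : ℝ) (hX : 1 ≤ X) : ∃ G, 1 ≤ G ∧ Cm n (c + 1) C X G := by
  obtain ⟨r, m₁, ce⟩ := ce n C X hC hX
  obtain ⟨r₁, l₁⟩ := li n C X hC hX
  obtain ⟨m₂, l₁⟩ := l₁ r
  obtain ⟨X₁, hX₁⟩ : ∃ X₁ : ℝ, X₁ = X + 1 + r₁ * r := ⟨_, rfl⟩
  have p1 : (0 : ℝ) ≤ r₁ * r := by positivity
  obtain ⟨r₂, l₂⟩ := li n C X₁ hC (by linarith)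
  have p2 : (0 : ℝ) ≤ r₂ := Nat.cast_nonneg _
  obtain ⟨G₂, g₂, i₂⟩ := ih (X₁ + 1 + r₂ * 1) (by linarith)
  obtain ⟨m₃, l₂⟩ := l₂ G₂
  obtain ⟨G₃, g₃, i₃⟩ := ih (X₁ + 1 + r₂ * G₂) (by nlinarith)
  have p3 : (0 : ℝ) ≤ r * (G₂ * G₃) := by positivity
  have q1 := le_abs_self m₁
  have q2 := le_abs_self m₂
  have q3 := le_abs_self m₃
  have q4 := abs_nonneg m₁
  have q5 := abs_nonneg m₂
  have q6 := abs_nonneg m₃
  refine ⟨|m₁| + |m₂| + |m₃| + X₁ + G₂ + G₃ + r * (G₂ * G₃), by linarith, ?_⟩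
  intro Ω _ _ _ w E t u se A S _ _ Z σ m sp m1 σm tm hσ hc ξ N hξ N0 hG hV
  have na := se.vs.na
  obtain ⟨j, rfl⟩ : ∃ j : Fin n, c = j := ⟨⟨c, lt_of_lt_of_le hc sp.jn⟩, rfl⟩
  have tr := sp.tri ξ
  obtain ⟨a, aL, b, bE, b0, b1, b2, b3, ν, ν0, ν1, hν⟩ :=
    ce Ω w E t u se A S Z σ m sp m1 σm tm (by linarith) j ξ hc (by linarith) hξ
  have b4 : |vl w (Z.ra ξ j) - vl w b| ≤ r := by rwa [abs_of_nonneg (sub_nonneg.2 b1)]
  have u1 : ∀ y, w (y * u j) = w y := fun y => by rw [map_mul, (se.tw j).one, mul_one]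
  obtain ⟨ξ₁, o₁, e₁, h₁⟩ := l₁ Ω w E t u se A S Z σ m sp m1 σm tm (by linarith) j ξ _ b hc
    (by linarith) hξ (tr.cen j) bE b0 (by rw [sub_sub_cancel, u1]) b4
  have h₂ : Z.Ψ ξ₁ ≤ X₁ := by
    have := mul_le_mul_of_nonneg_left b4 (Nat.cast_nonneg (α := ℝ) r₁)
    linarith
  have e₂ := ra_eq se.tw (sp.tri ξ₁) (tr.cen j) bE e₁
  have ν2 : (0 : ℝ) < ν := Nat.cast_pos.2 ν0
  have N1 : (0 : ℝ) < N := Nat.cast_pos.2 N0
  obtain ⟨k, z, k0, hk⟩ := two (g := vl w t / N / ν) (vl w b) g₂ g₃ (by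
    rw [le_div_iff₀ ν2]
    have := mul_le_mul_of_nonneg_right (Nat.cast_le (α := ℝ).2 ν1) (show 0 ≤ G₂ * G₃ by positivity)
    linarith)
  have k1 : (0 : ℝ) < k := Nat.cast_pos.2 k0
  have p0 : 0 < N * ν * k := by positivity
  obtain ⟨b', bE', b0', hb'⟩ := exists_val se.vs se.t0 z p0
  rw [div_div, div_div, ← mul_assoc, ← Nat.cast_mul, ← Nat.cast_mul, ← hb', ← e₂] at hk
  obtain ⟨ξ₂, o₂, e₃, h₃⟩ := l₂ Ω w E t u se A S Z σ m sp m1 σm tm (by linarith) j ξ₁ a b' hc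
    (by linarith) h₂ aL bE' b0' (by
      rw [e₂, e₁, show Z.co ξ j - Z.ra ξ j * u j + b * u j - a =
        Z.co ξ j - a - Z.ra ξ j * u j + b * u j by ring]
      refine (na _ _).trans (max_le ((na_sub na _ _).trans (max_le b3 ?_)) (u1 b).le)
      rw [u1, ← exp_vl (w := w) b0, ← exp_vl (w := w) (tr.ne j)]
      exact Real.exp_le_exp.2 (by linarith)) (hk.elim (·.2.trans g₂) (·.2))
  have V := vg_new (g := vl w t / (N * ν * k : ℕ)) (k := k) se (Kc.le (fun a => le_lv u j (se.cE a))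
    (le_lv u j se.tE) fun i hi => by
      rw [← tr.lv j]
      exact sub_acl _ _ ⟨i, hi, rfl⟩) aL bE' b0' ν0 (by
        rwa [show ν * k * (vl w t / (N * ν * k : ℕ)) = vl w t / N by push_cast; field_simp]) hν hb'
    (fun i hi => (o₂ i hi).trans (o₁ i hi)) e₃
  rcases hk with ⟨y, y'⟩ | ⟨y, y'⟩
  · exact i₂ Ω w E t u se A S Z σ m sp m1 σm tm (by linarith) (Nat.le_of_succ_le hc) ξ₂ _
      (h₃.trans (by gcongr)) p0 y V
  · exact i₃ Ω w E t u se A S Z σ m sp m1 σm tm (by linarith) (Nat.le_of_succ_le hc) ξ₂ _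
      (h₃.trans (by gcongr)) p0 y V

end Ro

theorem rounds : ROUNDS := fun ce li fi n C hC => by
  have h : ∀ c X, 1 ≤ X → ∃ G, 1 ≤ G ∧ Ro.Cm n c C X G := fun c => by
    induction c with
    | zero => exact Ro.base fi hC
    | succ c ih => exact Ro.step ce li hC ih
  choose G G1 h using fun c => h c C hC
  refine ⟨∑ c ∈ Finset.range (n + 1), G c, ∑ c ∈ Finset.range (n + 1), G c, 0, ?_⟩
  intro Ω _ _ _ w E t u se A S _ _ Z σ m sp m1 σm tm a b _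
  have k := Finset.single_le_sum (fun c _ => zero_le_one.trans (G1 c))
    (Finset.mem_range.2 (Nat.lt_succ_iff.2 sp.jn))
  obtain ⟨ξ, x, y⟩ := sp.start
  exact h _ Ω w E t u se A S Z σ m sp m1 σm tm (k.trans b) le_rfl ξ 1 x one_pos
    (by simpa using k.trans a) (by simpa using y)

end Vale.Agent.P283B.Rk
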