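import Vale.Agent.P283B.RK.KerF
import Vale.Agent.P283B.RK.Cen
import Vale.Agent.P283B.RK.Lip
import Vale.Agent.P283B.RK.Rounds

/-!
# P283B, block RK: the engine
-/

namespace Vale.Agent.P283B.Rk

theorem engine : ENGINE := engine_of ker fin scen slip rounds

end Vale.Agent.P283B.Rk
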