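import Vale.Agent.P283B.LS.Rnd
import Vale.Agent.P283B.LS.Mult

/-!
# P283B, block RK: the tower of discs with a bound for the rank (definitions and statements)

Valued fields only. The level `j` is generic over the levels `i > j` and `t`; the levels below `j₀`
are long and are moved, the others are short.
-/

open Set

noncomputable section

namespace Vale.Agent.P283B.Rk

open Mono Ls Ls.Rn Ls.Mu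

/-- functions with levels, coordinates, points with their radii, the log discrepancy -/
structure Dt (Ω A S : Type) [Field Ω] [Algebra ℂ Ω] [CommRing A] [Algebra ℂ A] (n : ℕ) where
  W : ℝ → Submodule ℂ A
  y : Fin n → A
  μ : Fin n → ℝ
  j₀ : ℕ
  va : S → A →ₐ[ℂ] Ω
  ra : S → Fin n → Ω
  Ψ : S → ℝ

section defs

variable {Ω A S : Type} [Field Ω] [Algebra ℂ Ω] [CommRing A] [Algebra ℂ A] {n : ℕ}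

/-- the coordinates of a point -/
def Dt.co (Z : Dt Ω A S n) (ξ : S) (j : Fin n) : Ω := Z.va ξ (Z.y j)

/-- the same coordinates above the level `c` -/
def Dt.Ov (Z : Dt Ω A S n) (c : Fin n) (ξ₀ ξ : S) : Prop := ∀ j, c < j → Z.co ξ j = Z.co ξ₀ j

/-- the weight -/
def Vf (w : AbsoluteValue Ω ℝ) {N : ℕ} (a : Fin N → Ω) (b : Ω) (ε c₀ : ℝ) (x : Ω) : ℝ :=
  ε * ∑ s, mv w (x - a s) (vl w b) - c₀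

/-- dual form of: a combination of functions of level `l` with constant coefficients of size at
most `exp l` has the values `f p` at the points `ξ p` up to errors of size `exp (-e p)` -/
def Ap (w : AbsoluteValue Ω ℝ) (Z : Dt Ω A S n) {ι : Type} [Fintype ι] (ξ : ι → S) (l : ℝ)
    (f : ι → Ω) (e : ι → ℝ) : Prop :=
  ∃ G : Finset A, (∀ g ∈ G, g ∈ Z.W l) ∧ ∀ (v : ι → Ω) (D : ℝ), 0 ≤ D →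
    (∀ g ∈ G, w (∑ p, v p * Z.va (ξ p) g) ≤ D * Real.exp (-l)) →
    (∀ p, w (v p) * Real.exp (-e p) ≤ D) → w (∑ p, v p * f p) ≤ D

/-- centres `a`, radius `b`, wall `a' + b' * u c`; all sizes are at most `R` -/
structure Sz (w : AbsoluteValue Ω ℝ) (E : Subfield Ω) (t : Ω) (u : Fin n → Ω) (Z : Dt Ω A S n)
    (σ R : ℝ) (c : Fin n) (ξ₀ : S) {N : ℕ} (a : Fin N → Ω) (b a' b' : Ω) (ε c₀ : ℝ) (k : ℕ) :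
    Prop where
  lo : c.1 < Z.j₀
  go : Z.Ψ ξ₀ ≤ σ
  aL : ∀ s, a s ∈ Lv E u c
  bE : b ∈ E
  b0 : b ≠ 0
  aL' : a' ∈ Lv E u c
  bE' : b' ∈ E
  b0' : b' ≠ 0
  e0 : 0 ≤ ε
  e1 : N * ε ≤ 1
  μR : Z.μ c ≤ R
  σR : σ ≤ R
  tR : vl w t ≤ R
  NR : (N : ℝ) ≤ R
  kR : (k : ℝ) ≤ R
  rR : ∀ j, c < j → |vl w (Z.ra ξ₀ j)| ≤ R
  cR : ∀ j, c < j → w (Z.co ξ₀ j) ≤ Real.exp R
  aR : ∀ s, w (a s) ≤ Real.exp R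
  aR' : w a' ≤ Real.exp R
  bR : |vl w b| ≤ R
  bR' : |vl w b'| ≤ R
  oR : |c₀| ≤ R

open Classical in
/-- what the tower uses about the geometry -/
structure Sp (w : AbsoluteValue Ω ℝ) (E : Subfield Ω) (t : Ω) (u : Fin n → Ω) (Z : Dt Ω A S n)
    (C σ m : ℝ) : Prop where
  min : ∀ M : Subfield Ω, Cl M → (∀ a, algebraMap ℂ Ω a ∈ M) → t ∈ M → E ≤ M
  mono : ∀ l l', 0 ≤ l → l ≤ l' → Z.W l ≤ Z.W l'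
  one : 1 ∈ Z.W 0
  mul : ∀ l l' f g, 0 ≤ l → 0 ≤ l' → f ∈ Z.W l → g ∈ Z.W l' → f * g ∈ Z.W (l + l')
  ym : ∀ j, Z.y j ∈ Z.W (Z.μ j)
  pos : ∀ j, 0 < Z.μ j
  anti : Antitone Z.μ
  jn : Z.j₀ ≤ n
  long : ∀ j : Fin n, j.1 < Z.j₀ → m ≤ Z.μ j
  tri : ∀ ξ, Tri E u (Z.co ξ) (Z.ra ξ)
  lc : ∀ ξ, 0 ≤ Z.Ψ ξ
  low : ∀ ξ j, Z.Ψ ξ ≤ σ → w (Z.co ξ j) ≤ Real.exp (C * (1 + Z.Ψ ξ) * Z.μ j)
  rad : ∀ ξ j, Z.Ψ ξ ≤ σ → vl w (Z.ra ξ j) ≤ C * (1 + Z.Ψ ξ) * Z.μ j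
  cnt : ∀ M l : ℝ, 1 ≤ M → m ≤ l → ∃ (N : ℕ) (π : Z.W l →ₗ[ℂ] Fin N → ℂ),
    (N : ℝ) ≤ C * ∏ j, (1 + C * M * l / Z.μ j) ∧
      ∀ f, π f = 0 → ∀ ξ, Z.Ψ ξ ≤ σ → w (Z.va ξ f) ≤ Real.exp (-((M - C * (1 + Z.Ψ ξ)) * l))
  conj : ∀ (c : Fin n) ξ a b, c.1 < Z.j₀ → a ∈ Lv E u c → b ∈ E → b ≠ 0 →
    Eqv w (Kc t (c + 1) (Z.co ξ)) (Z.co ξ c) (a + b * u c) →
    ∃ ξ', Z.Ov c ξ ξ' ∧ Z.co ξ' c = a + b * u c ∧ Z.Ψ ξ' = Z.Ψ ξ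
  nad : ∀ (R : ℝ) (c : Fin n) (ξ₀ : S) (N : ℕ) (a : Fin N → Ω) (b a' b' : Ω) (ε c₀ δ : ℝ) (k : ℕ)
    (e : ℤ) (ι : Type) [Fintype ι] (ξ : ι → S) (z : ι → Ω), Sz w E t u Z σ R c ξ₀ a b a' b' ε c₀ k →
    0 < δ → e = 1 ∨ e = -1 → (∀ p, Z.Ov c ξ₀ (ξ p) ∧ Z.Ψ (ξ p) ≤ σ ∧
      z p = ((Z.co (ξ p) c - a') / b') ^ e ∧ w (z p) ≠ 1) →
    (∀ ξ', Z.Ov c ξ₀ ξ' → Z.co ξ' c = a' + b' * u c → Vf w a b ε c₀ (Z.co ξ' c) < Z.Ψ ξ') →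
    Ap w Z ξ (C * R) (fun p => if w (z p) < 1 then z p ^ k else 0)
      fun p => Vf w a b ε c₀ (Z.co (ξ p) c) - Z.Ψ (ξ p) - δ
  ms : ∀ ξ (g : ℝ), Z.Ψ ξ ≤ σ → 0 < g →
    (∀ l, 0 ≤ l → ∀ f ∈ Z.W l, ∃ z : ℤ, vl w (Z.va ξ f) = z * g) → g ≤ C * (1 + Z.Ψ ξ)
  start : ∃ ξ, Z.Ψ ξ ≤ C ∧ VG w (Kc t Z.j₀ (Z.co ξ)) (vl w t)

end defs

/-- a statement for all data -/
def ForD (n : ℕ) (C : ℝ) (P : ∀ (Ω A S : Type) [Field Ω] [Algebra ℂ Ω] [CommRing A] [Algebra ℂ A],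
    AbsoluteValue Ω ℝ → Subfield Ω → Ω → (Fin n → Ω) → Dt Ω A S n → ℝ → ℝ → Prop) : Prop :=
  ForE n fun Ω _ _ w E t u => ∀ (A S : Type) [CommRing A] [Algebra ℂ A] (Z : Dt Ω A S n)
    (σ m : ℝ), Sp w E t u Z C σ m → 1 ≤ m → σ ≤ m → vl w t ≤ m → P Ω A S w E t u Z σ m

/-- **ENGINE** -/
def ENGINE : Prop := ∀ (n : ℕ) (C : ℝ), 1 ≤ C → ∃ G σ₀ m₀ : ℝ,
  ForD n C fun _ _ _ _ _ _ _ w _ t _ _ σ m => G ≤ vl w t → σ₀ ≤ σ → m₀ ≤ m → False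

/-- **KER**: the rank of the functions of level `l` at good points over a base point -/
def KER : Prop := ∀ (n : ℕ) (C X : ℝ), 1 ≤ C → 1 ≤ X → ∃ r : ℕ,
  ForD n C fun Ω A S _ _ _ _ w _ _ _ Z σ m => ∀ (c : Fin n) (ξ₀ : S) (ξ : Fin (r + 1) → S) (l : ℝ)
    (G : Finset A), (∀ p, Z.Ov c ξ₀ (ξ p) ∧ Z.Ψ (ξ p) ≤ σ ∧ Z.Ψ (ξ p) ≤ X) → m ≤ l →
    l ≤ X * Z.μ c → (∀ g ∈ G, g ∈ Z.W l) → ∃ v : Fin (r + 1) → Ω, (∃ p, w (v p) = 1) ∧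
      (∀ p, w (v p) ≤ 1) ∧ ∀ g ∈ G, w (∑ p, v p * Z.va (ξ p) g) ≤ Real.exp (-(4 * l))

/-- **FIN**: bounded ramification over the field of the coordinates -/
def FIN : Prop := ∀ (n : ℕ) (C X : ℝ), 1 ≤ C → 1 ≤ X → ∃ r : ℕ, 0 < r ∧
  ForD n C fun _ _ _ _ _ _ _ w _ t _ Z σ _ => ∀ ξ (g : ℝ), Z.Ψ ξ ≤ σ → Z.Ψ ξ ≤ X →
    VG w (Kc t 0 (Z.co ξ)) g → ∀ l, 0 ≤ l → ∀ f ∈ Z.W l, ∃ z : ℤ, vl w (Z.va ξ f) = z * (g / r)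

/-- **CEN**: a centre of bounded ramification in a slightly larger disc -/
def CEN : Prop := ∀ (n : ℕ) (C X : ℝ), 1 ≤ C → 1 ≤ X → ∃ (r : ℕ) (m₀ : ℝ),
  ForD n C fun Ω _ _ _ _ _ _ w E t u Z σ m => m₀ ≤ m → ∀ (c : Fin n) ξ, c.1 < Z.j₀ → Z.Ψ ξ ≤ σ →
    Z.Ψ ξ ≤ X → ∃ a ∈ Lv E u c, ∃ b ∈ E, b ≠ 0 ∧ vl w b ≤ vl w (Z.ra ξ c) ∧
      vl w (Z.ra ξ c) - vl w b ≤ r ∧ w (Z.co ξ c - a) ≤ w b ∧ ∃ ν : ℕ, 0 < ν ∧ ν ≤ r ∧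
        ∀ z ∈ Subfield.closure ((Kc t (c + 1) (Z.co ξ) : Set Ω) ∪ {a}),
          ∃ β ∈ Kc t (c + 1) (Z.co ξ), w z ^ ν = w β

/-- **LIP**: the radius can be moved -/
def LIP : Prop := ∀ (n : ℕ) (C X : ℝ), 1 ≤ C → 1 ≤ X → ∃ r : ℕ, ∀ Y : ℝ, ∃ m₀ : ℝ,
  ForD n C fun _ _ _ _ _ _ _ w E _ u Z σ m => m₀ ≤ m → ∀ (c : Fin n) ξ a b, c.1 < Z.j₀ →
    Z.Ψ ξ ≤ σ → Z.Ψ ξ ≤ X → a ∈ Lv E u c → b ∈ E → b ≠ 0 → w (Z.co ξ c - a) ≤ w (Z.ra ξ c) →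
    |vl w (Z.ra ξ c) - vl w b| ≤ Y → ∃ ξ', Z.Ov c ξ ξ' ∧ Z.co ξ' c = a + b * u c ∧
      Z.Ψ ξ' ≤ Z.Ψ ξ + 1 + r * |vl w (Z.ra ξ c) - vl w b|

/-- leaf -/
def SCEN : Prop := KER → CEN

/-- leaf -/
def SLIP : Prop := KER → LIP

/-- leaf -/
def ROUNDS : Prop := CEN → LIP → FIN → ENGINE

theorem engine_of (ke : KER) (fi : FIN) (ce : SCEN) (li : SLIP) (ro : ROUNDS) : ENGINE :=
  ro (ce ke) (li ke) fi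

end Vale.Agent.P283B.Rk
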