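import Vale.Agent.P283B.MONO.Va1

/-!
# P283B, block RK: approximate relations pass to bounded combinations (KER)
-/

open Set

noncomputable section

namespace Vale.Agent.P283B.Rk.Ke

open Mono

variable {Ω T : Type} [Field Ω] {w : AbsoluteValue Ω ℝ} {M : Subfield Ω} {δ : ℝ} {r : ℕ}

/-- an approximate relation with integral coefficients, one of which is one -/
def Rl (w : AbsoluteValue Ω ℝ) (M : Subfield Ω) (δ : ℝ) (g : Fin (r + 1) → T → Ω) : Prop :=
  ∃ c : Fin (r + 1) → Ω, (∀ j, c j ∈ M ∧ w (c j) ≤ 1) ∧ (∃ j, c j = 1) ∧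
    ∀ τ, w (∑ j, c j * g j τ) ≤ δ

/-- the approximate integral span -/
def Sp (w : AbsoluteValue Ω ℝ) (M : Subfield Ω) (δ : ℝ) (f : Fin r → T → Ω) (φ : T → Ω) : Prop :=
  ∃ a : Fin r → Ω, (∀ k, a k ∈ M ∧ w (a k) ≤ 1) ∧ ∀ τ, w (φ τ - ∑ k, a k * f k τ) ≤ δ

/-- normalisation of a relation -/
theorem Rl.of {g : Fin (r + 1) → T → Ω} {c : Fin (r + 1) → Ω} (hc : ∀ j, c j ∈ M) {l : ℝ}
    (l0 : 0 < l) (c0 : ∃ j, l ≤ w (c j)) (h : ∀ τ, w (∑ j, c j * g j τ) ≤ l * δ) (hδ : 0 ≤ δ) :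
    Rl w M δ g := by
  obtain ⟨j, -, hj⟩ := Finset.univ.exists_max_image (fun j => w (c j)) Finset.univ_nonempty
  obtain ⟨i, hi⟩ := c0
  have k := hi.trans (hj i (by simp))
  have p := l0.trans_le k
  refine ⟨fun i => c i / c j, fun i => ⟨div_mem (hc i) (hc j), ?_⟩,
    ⟨j, div_self (w.pos_iff.1 p)⟩, fun τ => ?_⟩
  · rw [map_div₀, div_le_one p]
    exact hj i (by simp)
  · simp only [div_mul_eq_mul_div, ← Finset.sum_div]
    rw [map_div₀, div_le_iff₀' p]
    exact (h τ).trans (by gcongr)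

theorem Sp.trans (hw : IsNonarchimedean w) (hδ : 0 ≤ δ) {f f' : Fin r → T → Ω} {φ : T → Ω}
    (h : Sp w M δ f φ) (k : ∀ i, Sp w M δ f' (f i)) : Sp w M δ f' φ := by
  obtain ⟨a, ha, h⟩ := h
  choose b hb k using k
  refine ⟨fun l => ∑ i, a i * b i l, fun l => ⟨sum_mem fun i _ => mul_mem (ha i).1 (hb i l).1,
    na_sum hw _ _ zero_le_one fun i _ => ?_⟩, fun τ => ?_⟩
  · rw [map_mul]
    exact mul_le_one₀ (ha i).2 (w.nonneg _) (hb i l).2
  · have e : φ τ - ∑ l, (∑ i, a i * b i l) * f' l τ = (φ τ - ∑ i, a i * f i τ) +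
        ∑ i, a i * (f i τ - ∑ l, b i l * f' l τ) := by
      simp only [Finset.sum_mul, mul_sub, Finset.sum_sub_distrib, Finset.mul_sum, mul_assoc]
      rw [Finset.sum_comm]
      ring
    rw [e]
    refine (hw _ _).trans (max_le (h τ) (na_sum hw _ _ hδ fun i _ => ?_))
    rw [map_mul]
    exact (mul_le_of_le_one_left (w.nonneg _) (ha i).2).trans (k i τ)

theorem Rl.sp (hδ : 0 ≤ δ) {g : Fin (r + 1) → T → Ω} (h : Rl w M δ g) :
    ∃ j : Fin (r + 1), ∀ i, Sp w M δ (fun k => g (j.succAbove k)) (g i) := by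
  classical
  obtain ⟨c, hc, ⟨j, hj⟩, h⟩ := h
  refine ⟨j, fun i => ?_⟩
  rcases j.eq_self_or_eq_succAbove i with rfl | ⟨k, rfl⟩
  · refine ⟨fun k => -c (i.succAbove k), fun k => ⟨neg_mem (hc _).1, by simpa using (hc _).2⟩,
      fun τ => ?_⟩
    have := h τ
    rw [Fin.sum_univ_succAbove _ i, hj, one_mul] at this
    simpa using this
  · refine ⟨Pi.single k 1, fun l => ?_, fun τ => by simpa [Pi.single_apply] using hδ⟩
    rw [Pi.single_apply]
    split_ifs <;> simp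

theorem exists_sp (hw : IsNonarchimedean w) (hδ : 0 ≤ δ) {W : Set (T → Ω)} (W0 : W.Nonempty)
    (h : ∀ g : Fin (r + 1) → T → Ω, (∀ j, g j ∈ W) → Rl w M δ g) (S : Set (T → Ω))
    (hS : S.Finite) : S ⊆ W → ∃ f : Fin r → T → Ω, (∀ k, f k ∈ W) ∧ ∀ φ ∈ S, Sp w M δ f φ := by
  induction S, hS using Finite.induction_on with
  | empty => exact fun _ => ⟨fun _ => W0.some, fun _ => W0.some_mem, by simp⟩
  | @insert g S _ _ ih =>
    intro k
    obtain ⟨f, hf, e⟩ := ih ((subset_insert _ _).trans k)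
    have m : ∀ j, (Fin.cons g f : Fin (r + 1) → T → Ω) j ∈ W :=
      Fin.cases (k (mem_insert _ _)) hf
    obtain ⟨j, hj⟩ := (h _ m).sp hδ
    refine ⟨_, fun k => m (j.succAbove k), ?_⟩
    rintro φ (rfl | hφ)
    exacts [hj 0, (e φ hφ).trans hw hδ fun i => hj i.succ]

/-- **KER** -/
theorem ker (hw : IsNonarchimedean w) (hδ : 0 ≤ δ) {W : Set (T → Ω)} (W0 : W.Nonempty)
    (h : ∀ g : Fin (r + 1) → T → Ω, (∀ j, g j ∈ W) → Rl w M δ g) {ι : Fin (r + 1) → Type}
    [∀ s, Fintype (ι s)] {e : ∀ s, ι s → Ω} {g : ∀ s, ι s → T → Ω} {Λ : ℝ} (Λ0 : 0 ≤ Λ)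
    (he : ∀ s l, e s l ∈ M ∧ w (e s l) ≤ Λ) (hg : ∀ s l, g s l ∈ W) :
    Rl w M (Λ * δ) fun s τ => ∑ l, e s l * g s l τ := by
  obtain ⟨f, -, hf⟩ := exists_sp hw hδ W0 h (range fun p : Σ s, ι s => g p.1 p.2) (finite_range _)
    (range_subset_iff.2 fun p => hg _ _)
  choose a ha hf using fun s l => hf _ ⟨⟨s, l⟩, rfl⟩
  obtain ⟨c, hc, i, c0⟩ := Fintype.not_linearIndependent_iff.1 fun k : LinearIndependent M
      fun s k => (⟨∑ l, e s l * a s l k, sum_mem fun l _ => mul_mem (he s l).1 (ha s l k).1⟩ : M) =>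
    by simpa using k.fintype_card_le_finrank
  have z : ∀ k, ∑ s, (c s : Ω) * ∑ l, e s l * a s l k = 0 := fun k => by
    simpa using congrArg (fun v : Fin r → M => M.subtype (v k)) hc
  obtain ⟨j, -, hj⟩ := Finset.univ.exists_max_image (fun j => w (c j)) Finset.univ_nonempty
  refine Rl.of (fun j => (c j).2) ((w.pos (Subtype.coe_ne_coe.2 c0)).trans_le (hj i (by simp)))
    ⟨j, le_rfl⟩ (fun τ => ?_) (by positivity)
  have : ∑ s, c s * ∑ l, e s l * g s l τ =
      ∑ s, c s * ∑ l, e s l * (g s l τ - ∑ k, a s l k * f k τ) := by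
    have : ∑ s, c s * ∑ l, e s l * ∑ k, a s l k * f k τ =
        ∑ k, (∑ s, (c s : Ω) * ∑ l, e s l * a s l k) * f k τ := by
      simp only [Finset.sum_mul, Finset.mul_sum, mul_assoc]
      exact (Finset.sum_congr rfl fun s _ => Finset.sum_comm).trans Finset.sum_comm
    simp only [mul_sub, Finset.sum_sub_distrib, this, z]
    simp
  rw [this]
  refine na_sum hw _ _ (by positivity) fun s _ => ?_
  rw [map_mul]
  refine mul_le_mul (hj s (by simp)) (na_sum hw _ _ (by positivity) fun l _ => ?_) (w.nonneg _)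
    (w.nonneg _)
  rw [map_mul]
  exact mul_le_mul (he s l).2 (hf s l τ) (w.nonneg _) Λ0

/-- **ORTH**: the powers of a generic element have no relation -/
theorem orth [IsAlgClosed Ω] (hw : IsNonarchimedean w) (hM : Cl M) {x : Ω} (hx : Gn w M x)
    {F : Fin (r + 1) → T → Ω} (h : Rl w M δ F) {τ : T}
    (hF : ∀ k, w (F k τ - x ^ k.1) < 1) : 1 ≤ δ := by
  obtain ⟨c, hc, ⟨j, hj⟩, h⟩ := h
  let f : Polynomial Ω := ∑ k, Polynomial.monomial k.1 (c k)
  have co : ∀ k : Fin (r + 1), f.coeff k = c k := fun k => by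
    simp [f, Polynomial.coeff_monomial, Fin.val_inj]
  have e := hx.eval_gn hw M.one_mem one_ne_zero (f := f) (hM.roots fun i => by
    rw [Polynomial.finsetSum_coeff]
    refine sum_mem fun k _ => ?_
    rw [Polynomial.coeff_monomial]
    split_ifs
    exacts [(hc k).1, M.zero_mem])
  have l := f.le_gaussNorm w (c := w 1) (w.nonneg _) j
  rw [← e, co, hj] at l
  have e' : ∑ k, c k * F k τ = f.eval (1 * x) + ∑ k, c k * (F k τ - x ^ k.1) := by
    simp [f, Polynomial.eval_finsetSum, mul_sub]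
  have s : w (∑ k, c k * (F k τ - x ^ k.1)) < 1 := na_sum_lt hw _ _ one_pos fun k _ => by
    rw [map_mul]
    exact (mul_le_of_le_one_left (w.nonneg _) (hc k).2).trans_lt (hF k)
  simp only [map_one, one_pow, mul_one] at l
  have := h τ
  rw [e', na_add_lt hw (s.trans_le l)] at this
  exact l.trans this

/-- **DIAG**: a matrix which is the identity up to weights has no relation -/
theorem diag (hw : IsNonarchimedean w) {F : Fin (r + 1) → T → Ω} (h : Rl w M δ F)
    {τ : Fin (r + 1) → T} {U : Fin (r + 1) → ℝ} (U0 : ∀ s, 0 < U s)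
    (h1 : ∀ s, w (F s (τ s) - 1) < 1) (h2 : ∀ s p, s ≠ p → w (F s (τ p)) * U p < U s) :
    ∃ s p, U s ≤ δ * U p := by
  classical
  obtain ⟨c, -, ⟨j, hj⟩, h⟩ := h
  obtain ⟨p, -, hp⟩ := Finset.univ.exists_max_image (fun s => w (c s) * U s) Finset.univ_nonempty
  have a := hp j (by simp)
  rw [hj, map_one, one_mul] at a
  have c0 : 0 < w (c p) := (mul_pos_iff_of_pos_right (U0 p)).1 ((U0 j).trans_le a)
  have e : w (c p * F p (τ p)) = w (c p) := by
    have := na_add_lt hw (x := 1) (y := F p (τ p) - 1) (by simpa using h1 p)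
    rw [add_sub_cancel, map_one] at this
    rw [map_mul, this, mul_one]
  have s : w (∑ s ∈ Finset.univ.erase p, c s * F s (τ p)) < w (c p) :=
    na_sum_lt hw _ _ c0 fun s hs => by
      refine lt_of_mul_lt_mul_right ?_ (U0 p).le
      rw [map_mul, mul_assoc]
      rcases (w.nonneg (c s)).eq_or_lt with z | z
      · rw [← z, zero_mul]
        exact mul_pos c0 (U0 p)
      · exact (mul_lt_mul_of_pos_left (h2 s p (Finset.mem_erase.1 hs).1) z).trans_le
          (hp s (by simp))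
  have := h (τ p)
  rw [← Finset.add_sum_erase _ _ (Finset.mem_univ p), na_add_lt hw (by rwa [e]), e] at this
  exact ⟨j, p, a.trans (mul_le_mul_of_nonneg_right this (U0 p).le)⟩

end Vale.Agent.P283B.Rk.Ke
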