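import Vale.Agent.P283B.RK.St

/-!
# P283B, block RK: the rank of the functions of bounded level (KER, FIN)
-/

open Set

noncomputable section

namespace Vale.Agent.P283B.Rk

open Mono Ls Ls.Rn

namespace Kf

variable {Ω : Type} [Field Ω] {w : AbsoluteValue Ω ℝ}

/-- elimination with full pivoting -/
theorem elim (hw : IsNonarchimedean w) {α : Type} (G : Finset α) {δ : ℝ} (δ0 : 0 ≤ δ) (k : ℕ)
    (v : α → Fin k → Ω) (H : ∀ g : Fin k → α, (∀ i, g i ∈ G) → ∃ (c : Fin k → Ω) (i₀ : Fin k),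
      c i₀ ≠ 0 ∧ ∀ p, w (∑ i, c i * v (g i) p) ≤ δ * w (c i₀)) :
    ∃ x : Fin k → Ω, (∃ p, w (x p) = 1) ∧ (∀ p, w (x p) ≤ 1) ∧
      ∀ g ∈ G, w (∑ p, x p * v g p) ≤ δ := by
  classical
  induction k with
  | zero =>
    obtain ⟨-, i, -⟩ := H Fin.elim0 fun i => i.elim0
    exact i.elim0
  | succ k ih =>
    by_cases h : ∀ g ∈ G, ∀ p, w (v g p) ≤ δ
    · refine ⟨Pi.single 0 1, ⟨0, by simp⟩, fun p => ?_, fun g hg => ?_⟩
      · rw [Pi.single_apply]
        split_ifs <;> simp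
      · simpa [Pi.single_apply] using h g hg 0
    push Not at h
    obtain ⟨g₁, hg₁, p₁, h₁⟩ := h
    obtain ⟨⟨g₀, p₀⟩, h₀, hm⟩ := (G ×ˢ (Finset.univ : Finset (Fin (k + 1)))).exists_max_image
      (fun q => w (v q.1 q.2)) ⟨(g₁, p₁), by simp [hg₁]⟩
    have hg₀ : g₀ ∈ G := (Finset.mem_product.1 h₀).1
    replace hm : ∀ g ∈ G, ∀ p, w (v g p) ≤ w (v g₀ p₀) := fun g hg p => hm (g, p) (by simp [hg])
    have d : δ < w (v g₀ p₀) := h₁.trans_le (hm _ hg₁ _)
    have d0 : 0 < w (v g₀ p₀) := δ0.trans_lt d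
    have v0 : v g₀ p₀ ≠ 0 := w.pos_iff.1 d0
    obtain ⟨x, ⟨q₀, x1⟩, x2, x3⟩ := ih
      (fun g q => v g (p₀.succAbove q) - v g p₀ / v g₀ p₀ * v g₀ (p₀.succAbove q)) fun g hg => by
      obtain ⟨c, i₀, c0, hc⟩ := H (Fin.cons g₀ g) (Fin.cases hg₀ hg)
      simp only [Fin.sum_univ_succ, Fin.cons_zero, Fin.cons_succ] at hc
      have cp := w.pos c0
      obtain ⟨j, hj⟩ : ∃ j : Fin k, w (c i₀) ≤ w (c j.succ) := by
        by_contra hn
        push Not at hn
        obtain rfl : i₀ = 0 := by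
          by_contra i0
          obtain ⟨j, rfl⟩ := Fin.exists_succ_eq.2 i0
          exact (hn j).false
        have := hc p₀
        rw [na_add_lt hw (na_sum_lt hw _ _ (by rw [map_mul]; positivity) fun j _ => by
          rw [map_mul, map_mul]
          exact mul_lt_mul_of_nonneg_of_pos (hn j) (hm _ (hg j) _) (w.nonneg _) d0), map_mul] at this
        nlinarith
      refine ⟨fun j => c j.succ, j, w.pos_iff.1 (cp.trans_le hj), fun q => ?_⟩
      have e : ∑ i : Fin k, c i.succ * (v (g i) (p₀.succAbove q) -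
          v (g i) p₀ / v g₀ p₀ * v g₀ (p₀.succAbove q)) =
          (c 0 * v g₀ (p₀.succAbove q) + ∑ i : Fin k, c i.succ * v (g i) (p₀.succAbove q)) -
            (c 0 * v g₀ p₀ + ∑ i : Fin k, c i.succ * v (g i) p₀) / v g₀ p₀ *
              v g₀ (p₀.succAbove q) := by
        rw [add_div, mul_div_cancel_right₀ _ v0, add_mul, Finset.sum_div, Finset.sum_mul,
          add_sub_add_left_eq_sub, ← Finset.sum_sub_distrib]
        exact Finset.sum_congr rfl fun i _ => by ring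
      rw [e]
      refine ((na_sub hw _ _).trans (max_le (hc _) ?_)).trans (mul_le_mul_of_nonneg_left hj δ0)
      rw [map_mul, map_div₀, div_mul_eq_mul_div, div_le_iff₀ d0]
      exact mul_le_mul (hc _) (hm _ hg₀ _) (w.nonneg _) (by positivity)
    refine ⟨p₀.insertNth (-(∑ q, x q * v g₀ (p₀.succAbove q)) / v g₀ p₀) x,
      ⟨p₀.succAbove q₀, by rwa [Fin.insertNth_apply_succAbove]⟩, fun p => ?_, fun g hg => ?_⟩
    · refine p₀.succAboveCases ?_ (fun q => ?_) p
      · rw [Fin.insertNth_apply_same, map_div₀, w.map_neg, div_le_one d0]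
        refine na_sum hw _ _ d0.le fun q _ => ?_
        rw [map_mul]
        exact (mul_le_of_le_one_left (w.nonneg _) (x2 q)).trans (hm _ hg₀ _)
      · rw [Fin.insertNth_apply_succAbove]
        exact x2 q
    · refine le_of_eq_of_le (congrArg w ?_) (x3 g hg)
      rw [Fin.sum_univ_succAbove _ p₀]
      simp only [Fin.insertNth_apply_same, Fin.insertNth_apply_succAbove, mul_sub,
        Finset.sum_sub_distrib]
      rw [neg_div, Finset.sum_div, neg_mul, Finset.sum_mul, neg_add_eq_sub]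
      congr 1
      exact Finset.sum_congr rfl fun i _ => by ring

/-- the leading monomial gives a lower bound at a triangular point -/
theorem lead [IsAlgClosed Ω] (hw : IsNonarchimedean w) {E : Subfield Ω} {R : Type} [CommRing R]
    (φ : R →+* Ω) (hφ : ∀ a, φ a ∈ E) (h1 : ∀ a, a ≠ 0 → w (φ a) = 1) {e : ℕ}
    {u η γ : Fin e → Ω} (hu : Tw w E u) (h : Tri E u η γ) {p : MvPolynomial (Fin e) R}
    (hp : p ≠ 0) : ∃ m ∈ p.support, ∏ j, w (γ j) ^ m j ≤ w (p.eval₂ φ η) := by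
  induction e with
  | zero =>
    obtain ⟨a, rfl⟩ := MvPolynomial.C_surjective (Fin 0) p
    have a0 : a ≠ 0 := fun k => hp (by rw [k, MvPolynomial.C_0])
    exact ⟨0, by simpa using a0, by simp [h1 a a0]⟩
  | succ e ih =>
    have p0 : MvPolynomial.finSuccEquiv R e p ≠ 0 := by simpa using hp
    obtain ⟨m, hm, k⟩ := ih hu.tail h.tail (Polynomial.leadingCoeff_ne_zero.2 p0)
    have k0 : (MvPolynomial.finSuccEquiv R e p).leadingCoeff.eval₂ φ (Fin.tail η) ≠ 0 :=
      w.pos_iff.1 (lt_of_lt_of_le (Finset.prod_pos fun j _ => pow_pos (w.pos (h.tail.ne j)) _) k)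
    have e1 := Polynomial.natDegree_map_of_leadingCoeff_ne_zero
      (MvPolynomial.eval₂Hom φ (Fin.tail η)) k0
    have e2 := Polynomial.leadingCoeff_map_of_leadingCoeff_ne_zero
      (MvPolynomial.eval₂Hom φ (Fin.tail η)) k0
    refine ⟨m.cons (MvPolynomial.finSuccEquiv R e p).natDegree, ?_, ?_⟩
    · rw [MvPolynomial.mem_support_iff, ← MvPolynomial.finSuccEquiv_coeff_coeff]
      exact MvPolynomial.mem_support_iff.1 hm
    have := (hu 0).eval_roots hw (h.cen 0) (le_lv u 0 (h.mem 0)) (h.ne 0)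
      ((lv_cl u 0).roots (up_mem φ hφ h p))
    rw [sub_add_cancel, up_eval] at this
    rw [this, Fin.prod_univ_succ, mul_comm, Finsupp.cons_zero, ← e1]
    refine mul_le_mul (k.trans_eq (congrArg w e2.symm)) ?_ (by positivity) (w.nonneg _)
    rw [← IsAlgClosed.card_roots_eq_natDegree, ← Multiset.prod_replicate, ← Multiset.map_const']
    exact Multiset.prod_map_le_prod_map₀ _ _ (fun _ _ => w.nonneg _) fun _ _ => le_max_left _ _

theorem two (hw : IsNonarchimedean w) {ι : Type} [Fintype ι] (T : ι → Ω) {i₀ : ι}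
    (h : w (∑ i, T i) < w (T i₀)) : ∃ i j, i ≠ j ∧ T i ≠ 0 ∧ w (T i) = w (T j) := by
  classical
  obtain ⟨i, -, hi⟩ := Finset.univ.exists_max_image (fun i => w (T i)) ⟨i₀, Finset.mem_univ _⟩
  have l := h.trans_le (hi i₀ (Finset.mem_univ _))
  have p := (w.nonneg _).trans_lt l
  by_contra hn
  push Not at hn
  rw [← Finset.add_sum_erase _ _ (Finset.mem_univ i), na_add_lt hw (na_sum_lt hw _ _ p
    fun j hj => lt_of_le_of_ne (hi j (Finset.mem_univ _))
      (hn i j (Finset.ne_of_mem_erase hj).symm (w.pos_iff.1 p)).symm)] at l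
  exact l.false

theorem num {n : ℕ} {C Y X l : ℝ} {μ : Fin n → ℝ} (C0 : 0 ≤ C) (Y0 : 0 ≤ Y) (X1 : 1 ≤ X)
    (l0 : 0 ≤ l) (μ0 : ∀ j, 0 < μ j) (d : Fin n → ℕ)
    (h : ∀ j, l / μ j ≤ X * (d j + 1)) : C * ∏ j, (1 + Y * l / μ j) <
      (⌈C * ((1 + Y) * X) ^ n⌉₊ + 1 : ℕ) * ∏ j, ((d j + 1 : ℕ) : ℝ) := by
  have a : ∏ j, (1 + Y * l / μ j) ≤ ∏ j, ((1 + Y) * X * ((d j + 1 : ℕ) : ℝ)) := by
    refine Finset.prod_le_prod (fun j _ => by have := μ0 j; positivity) fun j _ => ?_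
    have b := mul_le_mul_of_nonneg_left (h j) Y0
    have c : (0 : ℝ) ≤ d j := Nat.cast_nonneg _
    rw [mul_div_assoc]
    push_cast
    nlinarith
  rw [Finset.prod_mul_distrib, Finset.prod_const, Finset.card_univ, Fintype.card_fin] at a
  refine (mul_le_mul_of_nonneg_left a C0).trans_lt ?_
  rw [← mul_assoc]
  refine mul_lt_mul_of_pos_right ?_ (Finset.prod_pos fun j _ => by positivity)
  push_cast
  linarith [Nat.le_ceil (C * ((1 + Y) * X) ^ n)]

variable [Algebra ℂ Ω] {A S : Type} [CommRing A] [Algebra ℂ A] {n : ℕ} {E : Subfield Ω} {t : Ω}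
  {u : Fin n → Ω} {Z : Dt Ω A S n} {C σ m : ℝ}

theorem pow_mem (h : Sp w E t u Z C σ m) {f : A} {l : ℝ} (l0 : 0 ≤ l) (hf : f ∈ Z.W l) (k : ℕ) :
    f ^ k ∈ Z.W (k * l) := by
  induction k with
  | zero => simpa using h.one
  | succ k ih =>
    have := h.mul _ _ _ _ (by positivity) l0 ih hf
    rwa [← pow_succ, ← add_one_mul, ← Nat.cast_succ] at this

theorem mon_mem (h : Sp w E t u Z C σ m) (a : Fin n → ℕ) (s : Finset (Fin n)) :
    ∏ j ∈ s, Z.y j ^ a j ∈ Z.W (∑ j ∈ s, a j * Z.μ j) := by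
  classical
  induction s using Finset.induction_on with
  | empty => simpa using h.one
  | insert j s hj ih =>
    rw [Finset.prod_insert hj, Finset.sum_insert hj]
    exact h.mul _ _ _ _ (mul_nonneg (Nat.cast_nonneg _) (h.pos j).le) (Finset.sum_nonneg fun i _ =>
      mul_nonneg (Nat.cast_nonneg _) (h.pos i).le) (pow_mem h (h.pos j).le (h.ym j) _) ih

/-- relations with coefficients in the field of the coordinates `j ≥ c` -/
theorem rel (n : ℕ) {C X M : ℝ} (C1 : 1 ≤ C) (X1 : 1 ≤ X) (M1 : 1 ≤ M) : ∃ r : ℕ,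
    ForD n C fun Ω A _ _ _ _ _ w _ t _ Z σ m => ∀ (c : ℕ) (l : ℝ) (g : Fin (r + 1) → A), m ≤ l →
      (∀ j : Fin n, j.1 < c → l ≤ X * Z.μ j) → (∀ i, g i ∈ Z.W l) →
      ∃ x : Fin (r + 1) → (Fin n → Ω) → Ω, (∀ i η, x i η ∈ Kc t c η) ∧
        (∀ η η', (∀ j : Fin n, c ≤ j.1 → η j = η' j) → ∀ i, x i η = x i η') ∧
        ∀ ξ, Z.Ψ ξ ≤ σ → Z.Ψ ξ ≤ X →
          w (∑ i, x i (Z.co ξ) * Z.va ξ (g i)) ≤ Real.exp (-(M * l)) ∧
          ∃ i, Real.exp (-(n * (C * (1 + X) * l))) ≤ w (x i (Z.co ξ)) := by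
  classical
  refine ⟨⌈C * ((1 + C * (M + C * (1 + X)) * (n + 1)) * X) ^ n⌉₊, ?_⟩
  intro Ω _ _ _ w E t u se A S _ _ Z σ m h m1 _ _ c l g ml lX hg
  have l0 : 0 ≤ l := by linarith
  have n0 : (0 : ℝ) ≤ n := Nat.cast_nonneg _
  let d : Fin n → ℕ := fun j => if c ≤ j.1 then ⌊l / Z.μ j⌋₊ else 0
  have dl : ∀ j, d j * Z.μ j ≤ l := fun j => by
    have := h.pos j
    simp only [d]
    split_ifs
    · exact (le_div_iff₀ this).1 (Nat.floor_le (by positivity))
    · simpa using l0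
  obtain ⟨N, π, hN, hπ⟩ := h.cnt (M + C * (1 + X)) ((n + 1) * l) (by nlinarith) (by nlinarith)
  have mem : ∀ q : Fin (⌈C * ((1 + C * (M + C * (1 + X)) * (n + 1)) * X) ^ n⌉₊ + 1) × ∀ j, Fin (d j + 1),
      (∏ j, Z.y j ^ (q.2 j).1) * g q.1 ∈ Z.W ((n + 1) * l) := fun q => by
    have p : ∀ j, 0 ≤ (q.2 j).1 * Z.μ j := fun j => mul_nonneg (Nat.cast_nonneg _) (h.pos j).le
    have p' := Finset.sum_nonneg fun j (_ : j ∈ Finset.univ) => p j
    refine h.mono _ _ (by linarith) ?_ (h.mul _ _ _ _ p' l0 (mon_mem h _ _) (hg _))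
    have := Finset.sum_le_card_nsmul Finset.univ (fun j => (q.2 j).1 * Z.μ j) l fun j _ =>
      (mul_le_mul_of_nonneg_right (by exact_mod_cast Nat.le_of_lt_succ (q.2 j).2)
        (h.pos j).le).trans (dl j)
    rw [Finset.card_univ, Fintype.card_fin, nsmul_eq_mul] at this
    linarith
  obtain ⟨x, hx, ⟨i₀, a₀⟩, x0⟩ := Fintype.not_linearIndependent_iff.1 fun k :
      LinearIndependent ℂ fun q => π ⟨_, mem q⟩ => by
    have k := k.fintype_card_le_finrank
    rw [Module.finrank_fin_fun, Fintype.card_prod, Fintype.card_pi, Fintype.card_fin] at k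
    simp only [Fintype.card_fin] at k
    have k' := (Nat.cast_le (α := ℝ)).2 k
    rw [Nat.cast_mul, Nat.cast_prod] at k'
    refine (num (by linarith) (by positivity : 0 ≤ C * (M + C * (1 + X)) * (n + 1)) X1 l0 h.pos d
      fun j => ?_).not_ge (k'.trans (hN.trans_eq ?_))
    · have := h.pos j
      simp only [d]
      split_ifs with b
      · exact (Nat.lt_floor_add_one _).le.trans (le_mul_of_one_le_left (by positivity) X1)
      · simpa using (div_le_iff₀ this).2 (lX j (not_le.1 b))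
    · simp only [mul_assoc]
  let mo : (∀ j, Fin (d j + 1)) → Fin n →₀ ℕ := fun a => Finsupp.equivFunOnFinite.symm
    fun j => (a j).1
  let P := fun i => ∑ a, MvPolynomial.monomial (mo a) (x (i, a))
  have ev : ∀ i (η : Fin n → Ω), (P i).eval₂ (algebraMap ℂ Ω) η =
      ∑ a, algebraMap ℂ Ω (x (i, a)) * ∏ j, η j ^ (a j).1 := fun i η => by
    simp only [P, MvPolynomial.eval₂_sum, MvPolynomial.eval₂_monomial]
    refine Finset.sum_congr rfl fun a _ => ?_
    rw [Finsupp.prod_fintype _ _ (by simp)]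
    rfl
  have z : ∀ (a : ∀ j, Fin (d j + 1)) j, ¬ c ≤ j.1 → (a j).1 = 0 := fun a j b => by
    have := (a j).2
    simp only [d, if_neg b] at this
    omega
  refine ⟨fun i η => (P i).eval₂ (algebraMap ℂ Ω) η, fun i η => ?_, fun η η' k i => ?_,
    fun ξ a b => ⟨?_, i₀, ?_⟩⟩
  · simp only [ev]
    refine sum_mem fun a _ => mul_mem (Kc.con _ _ _ _) (prod_mem fun j _ => ?_)
    by_cases b : c ≤ j.1
    · exact _root_.pow_mem (Kc.xm _ _ b) _
    · rw [z a j b, pow_zero]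
      exact one_mem _
  · simp only [ev]
    refine Finset.sum_congr rfl fun a _ => congrArg _ (Finset.prod_congr rfl fun j _ => ?_)
    by_cases b : c ≤ j.1
    · rw [k j b]
    · rw [z a j b, pow_zero, pow_zero]
  · have := hπ (∑ q, x q • ⟨_, mem q⟩) (by simpa only [map_sum, map_smul] using hx) ξ a
    refine (le_of_eq_of_le (congrArg w ?_) this).trans (Real.exp_le_exp.2 (by
      nlinarith [mul_nonneg (mul_nonneg n0 l0) (zero_le_one.trans M1), mul_nonneg
        (mul_nonneg (zero_le_one.trans C1) (sub_nonneg.2 b)) (by positivity : 0 ≤ (n + 1) * l)]))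
    simp only [ev, Submodule.coe_sum, Submodule.coe_smul, map_sum, map_mul, map_prod,
      map_pow, Fintype.sum_prod_type, Finset.sum_mul, Algebra.smul_def, mul_assoc,
      AlgHom.commutes]
    rfl
  · have inj : Function.Injective mo := fun a a' k => funext fun j =>
      Fin.ext (congrFun (Finsupp.equivFunOnFinite.symm.injective k) j)
    have co : ∀ s, (P i₀).coeff s = ∑ a, if mo a = s then x (i₀, a) else 0 := fun s => by
      simp only [P, MvPolynomial.coeff_sum, MvPolynomial.coeff_monomial]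
    obtain ⟨s, hs, k⟩ := lead se.vs.na (algebraMap ℂ Ω) se.cE se.c1 se.tw (h.tri ξ) (p := P i₀)
      fun k => x0 (by
        have := co (mo a₀)
        simpa [k, inj.eq_iff] using this.symm)
    obtain ⟨a', -, ha⟩ := Finset.exists_ne_zero_of_sum_ne_zero
      (co s ▸ MvPolynomial.mem_support_iff.1 hs)
    obtain rfl : mo a' = s := by_contra fun k => ha (if_neg k)
    refine le_trans ?_ k
    rw [← mul_neg, Real.exp_nat_mul, ← Fin.prod_const]
    refine Finset.prod_le_prod (fun _ _ => (Real.exp_pos _).le) fun j _ => ?_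
    rw [← exp_vl (w := w) ((h.tri ξ).ne j), ← Real.exp_nat_mul]
    refine Real.exp_le_exp.2 ?_
    have q : ((mo a' j : ℕ) : ℝ) ≤ d j := by exact_mod_cast Nat.le_of_lt_succ (a' j).2
    have q0 : (0 : ℝ) ≤ (mo a' j : ℕ) := Nat.cast_nonneg _
    have p := h.pos j
    have r : vl w (Z.ra ξ j) ≤ C * (1 + X) * Z.μ j := (h.rad ξ j a).trans (by gcongr)
    have := mul_le_mul_of_nonneg_left ((mul_le_mul_of_nonneg_right q p.le).trans (dl j))
      (by positivity : 0 ≤ C * (1 + X))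
    nlinarith [mul_le_mul_of_nonneg_left r q0]

end Kf

open Kf

theorem ker : KER := fun n C X C1 X1 => by
  have p : 0 ≤ n * (C * (1 + X)) := by positivity
  obtain ⟨r, hr⟩ := rel n (M := n * (C * (1 + X)) + 4) C1 X1 (by linarith)
  refine ⟨r, ?_⟩
  intro Ω _ _ _ w E t u se A S _ _ Z σ m h m1 m2 m3 c ξ₀ ξ l G hξ ml lX hG
  refine elim se.vs.na G (Real.exp_pos _).le _ (fun g p => Z.va (ξ p) g) fun g hg => ?_
  obtain ⟨x, -, x2, x3⟩ := hr Ω w E t u se A S Z σ m h m1 m2 m3 (c + 1) l g ml (fun j hj =>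
    lX.trans (mul_le_mul_of_nonneg_left (h.anti (Nat.le_of_lt_succ hj)) (by linarith)))
    fun i => hG _ (hg i)
  have e : ∀ p i, x i (Z.co (ξ p)) = x i (Z.co ξ₀) := fun p => x2 _ _ fun j hj => (hξ p).1 j hj
  obtain ⟨-, i, hi⟩ := x3 (ξ 0) (hξ 0).2.1 (hξ 0).2.2
  rw [e] at hi
  refine ⟨fun i => x i (Z.co ξ₀), i, w.pos_iff.1 ((Real.exp_pos _).trans_le hi), fun p => ?_⟩
  have := (x3 (ξ p) (hξ p).2.1 (hξ p).2.2).1
  simp only [e] at this
  refine this.trans (le_trans ?_ (mul_le_mul_of_nonneg_left hi (Real.exp_pos _).le))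
  rw [← Real.exp_add]
  exact Real.exp_le_exp.2 (by linarith)

theorem fin : FIN := fun n C X C1 X1 => by
  have p : 0 ≤ n * (C * (1 + X)) := by positivity
  obtain ⟨r, hr⟩ := rel n (M := n * (C * (1 + X)) + 1) C1 X1 (by linarith)
  refine ⟨r.factorial, r.factorial_pos, ?_⟩
  intro Ω _ _ _ w E t u se A S _ _ Z σ m h m1 m2 m3 ξ g a b hV l l0 f hf
  by_cases f0 : Z.va ξ f = 0
  · exact ⟨0, by simp [f0, vl_zero]⟩
  have r0 : (0 : ℝ) ≤ r := Nat.cast_nonneg _
  have v0 := abs_nonneg (vl w (Z.va ξ f))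
  obtain ⟨x, x1, -, x3⟩ := hr Ω w E t u se A S Z σ m h m1 m2 m3 0
    (m + r * l + r * |vl w (Z.va ξ f)|) (fun i => f ^ i.1) (by nlinarith)
    (fun j hj => absurd hj (Nat.not_lt_zero _)) fun i => by
      have q : ((i.1 : ℕ) : ℝ) ≤ r := by exact_mod_cast Nat.le_of_lt_succ i.2
      exact h.mono _ _ (by positivity) (by nlinarith) (pow_mem h l0 hf i)
  obtain ⟨x4, i₀, x5⟩ := x3 ξ a b
  have vp : ∀ k : ℕ, vl w (Z.va ξ f ^ k) = k * vl w (Z.va ξ f) := fun k => by simp [vl]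
  obtain ⟨i, j, ij, i0, e⟩ := two se.vs.na (fun i => x i (Z.co ξ) * Z.va ξ (f ^ i.1))
    (i₀ := i₀) (by
      refine x4.trans_lt (lt_of_lt_of_le ?_
        ((mul_le_mul_of_nonneg_right x5 (w.nonneg _)).trans_eq (map_mul w _ _).symm))
      rw [map_pow, ← exp_vl (pow_ne_zero _ f0), vp, ← Real.exp_add]
      have q : ((i₀.1 : ℕ) : ℝ) ≤ r := by exact_mod_cast Nat.le_of_lt_succ i₀.2
      have q0 : (0 : ℝ) ≤ (i₀.1 : ℕ) := Nat.cast_nonneg _
      have := mul_le_mul_of_nonneg_left (le_abs_self (vl w (Z.va ξ f))) q0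
      refine Real.exp_lt_exp.2 ?_
      nlinarith [mul_le_mul_of_nonneg_right q v0, mul_nonneg r0 l0])
  have j0 := w.pos_iff.1 (e ▸ w.pos i0)
  replace e := congrArg (fun z => -Real.log z) e
  change vl w _ = vl w _ at e
  rw [vl_mul (left_ne_zero_of_mul i0) (right_ne_zero_of_mul i0),
    vl_mul (left_ne_zero_of_mul j0) (right_ne_zero_of_mul j0), map_pow, map_pow, vp, vp] at e
  obtain ⟨zi, hi⟩ := hV _ (x1 i (Z.co ξ))
  obtain ⟨zj, hj⟩ := hV _ (x1 j (Z.co ξ))
  have ne : (i.1 : ℤ) - j.1 ≠ 0 := fun k => ij (Fin.ext (by omega))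
  obtain ⟨k, hk⟩ : (i.1 : ℤ) - j.1 ∣ r.factorial := Int.natAbs_dvd.1 (Int.natCast_dvd_natCast.2
    (Nat.dvd_factorial (Int.natAbs_pos.2 ne) (by have := i.2; have := j.2; omega)))
  have hk' : ((r.factorial : ℕ) : ℝ) = ((i.1 : ℝ) - j.1) * k := by exact_mod_cast hk
  have r1 : ((r.factorial : ℕ) : ℝ) ≠ 0 := by exact_mod_cast r.factorial_ne_zero
  refine ⟨(zj - zi) * k, ?_⟩
  rw [mul_div_assoc', eq_div_iff r1, hk']
  push_cast
  linear_combination k * e - k * hi + k * hj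

end Vale.Agent.P283B.Rk
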